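import Vale.Agent.P106.U.H457.SC0
import Vale.Agent.P106.U.H931.SC
import Vale.Agent.P106.U.H931.PEnd

/-!
# P106 / U / H457 : row [SC] kind 0 pointwise, over the record with a smaller margin (helper457)

* `cB_le` : `cB K 100 ≤ (100 K) ^ 20`.
* `A0s`, `wS_eq` : `wS = A0 + (3 / c') P(Bad)`.
* **`colN_run`** : hypothesis `Co` of `win_old_all` for the run `low R μ o`, `w j = A0 + A1 P(Bad K' (f (j + 1)) b)` literally as in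
  helper931's `sc0`.
-/

set_option autoImplicit false

namespace Vale.Agent.P106.U.H457

open Finset Vale.Agent.P127 Vale.Agent.P127.Stk Vale.Agent.P127.U Vale.Agent.P106.W Vale.Agent.P106.K Vale.Agent.P106.U
open Vale.Agent.P127.U.CellD (q2 rd q2_pos q2_add q2_le)
open Vale.Agent.P127.U.Mic (colp colp_nonneg)
open Vale.Agent.P106.U.Cell (Pth Ray)
open Vale.Agent.P106.U.S3 (Run)
open Vale.Agent.P106.U.S5
open Vale.Agent.P106.U.H118 (Sdat CS mem_CS)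
open Vale.Agent.P106.U.H833
open Vale.Agent.P106.U.H931 (Lv cB Nq nx XN lvi)
open Vale.Agent.P106.U.H101 (lc low low_ok)
open Vale.Agent.P106.U.MIC (bc ix nz az)

theorem cB_le {K : ℝ} (hK : 1 ≤ K) : cB K 100 ≤ (100 * K) ^ 20 := by
  unfold cB H364.N4.cst
  have h1 : K ^ 9 ≤ K ^ 20 := pow_le_pow_right₀ hK (by norm_num)
  have h2 : 4 * (200 * (3 * K) ^ 7 * (6 * 100 ^ 2 * K) ^ 2) = 4 * 200 * 3 ^ 7 * (6 * 100 ^ 2) ^ 2 * K ^ 9 := by ring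
  have h3 : (100 * K) ^ 20 = 100 ^ 20 * K ^ 20 := by ring
  rw [h2, h3]
  have h4 : (0 : ℝ) ≤ K ^ 9 := by positivity
  calc (4 * 200 * 3 ^ 7 * (6 * 100 ^ 2) ^ 2 : ℝ) * K ^ 9 ≤ 100 ^ 20 * K ^ 9 :=
        mul_le_mul_of_nonneg_right (by norm_num) h4
    _ ≤ 100 ^ 20 * K ^ 20 := mul_le_mul_of_nonneg_left h1 (by positivity)

/-- number of values of the digits of the slope -/
theorem nn_le {K : ℝ} (hK : 1 ≤ K) {Nn : ℕ} (h : 10 ^ 9 * K ^ 6 ≤ Nn) :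
    40 * ((3 * K) ^ 5 * (6 * 100 ^ 2 * K)) + 2 * K ≤ Nn := by
  have h1 : K ^ 1 ≤ K ^ 6 := pow_le_pow_right₀ hK (by norm_num)
  rw [pow_one] at h1
  have h2 : 40 * ((3 * K) ^ 5 * (6 * 100 ^ 2 * K)) = 583200000 * K ^ 6 := by ring
  rw [h2]
  have h3 : (0 : ℝ) ≤ K ^ 6 := by positivity
  linarith

/-- the constant part of the bound -/
noncomputable def A0s (c' eG ε : ℝ) (Nn g : ℕ) : ℝ :=
  (36 * eG + 6 * q2 (2 * g)) / c' + (4 * Real.sqrt (((2 * Nn + 3 : ℕ) : ℝ) * ε) + 2 * ε)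

theorem wS_eq {Ω : Type} [Fintype Ω] {τ υ : Type} (R : Run Ω τ υ) (c' eG ε K'' : ℝ) (Nn g t : ℕ) :
    wS R c' eG ε K'' Nn g t = A0s c' eG ε Nn g + 3 / c' * prE R.Q (R.C.Bad K'' t (bc R)) := by
  unfold wS A0s bc
  ring

section run

variable {σ : Cst} {ε : ℝ} {ρ : Thr} {m B : ℕ} {Ω : Type} [Fintype Ω] {Q : Law Ω} {l : Ω → Ry} {t : Ω → ℝ}
  {L h q r0 Rn : ℕ} {W : Ω → Cbx} {τ υ : Type} {R : Run Ω τ υ} {pn : Run.Num} {g' gU e κ₀ : ℝ} {a1 r1 : ℕ}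

theorem lb_low (H : RunOk σ ε ρ m B Q l t L h q r0 Rn W R pn g' gU e κ₀ a1 r1)
    (hlb : ∀ ω, 0 < Q.w ω → LbOk 100 L h (W ω) (l ω) (t ω) ∧ (W ω).u2 = 1 ∧ (W ω).u1 = (1 / 2 : ℝ) ^ q)
    (μ : ℕ) (o : Fin 7 → ℝ) : ∀ ω, 0 < (low R μ o).Q.w ω →
      LbOk 100 (low R μ o).L (low R μ o).h ((low R μ o).W ω) ((low R μ o).ry ω) ((low R μ o).t ω) ∧
        ((low R μ o).W ω).u2 = 1 ∧ ((low R μ o).W ω).u1 = (1 / 2 : ℝ) ^ (low R μ o).q := by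
  intro ω hω
  have h1 : 0 < Q.w ω := by
    rw [← H.hQ]
    exact hω
  have h2 := hlb ω h1
  show LbOk 100 R.L R.h (R.W ω) (R.ry ω) (R.t ω) ∧ (R.W ω).u2 = 1 ∧ (R.W ω).u1 = (1 / 2 : ℝ) ^ R.q
  rw [H.hL, H.hh, H.hW, H.hry, H.ht, H.hq]
  exact h2

/-- **row [SC] kind 0, pointwise** -/
theorem colN_run (H : RunOk σ ε ρ m B Q l t L h q r0 Rn W R pn g' gU e κ₀ a1 r1) (hσ : σ.Ok) (hρ : ρ.Ok)
    (hlb : ∀ ω, 0 < Q.w ω → LbOk 100 L h (W ω) (l ω) (t ω) ∧ (W ω).u2 = 1 ∧ (W ω).u1 = (1 / 2 : ℝ) ^ q)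
    (hB : (3 * ρ.K) ^ 2 * (6 * 100 ^ 2 * ρ.K) ≤ 2 ^ B) {μ : ℕ} (o : Fin 7 → ℝ) (hμ : μ ≤ R.C.μ) {f : ℕ → ℕ}
    (hf : Monotone f) {N : ℕ} (hN : f N ≤ R.n) {cc M s c0 g pv b' Mu Wd Kr Lb : ℕ}
    (Hn : NumN (low R μ o) pn ρ.K cc R.b1 M s c0 g pv b' Mu Wd Kr Lb) {eG : ℝ} {b0 : ℕ} {γ : ℕ → Prop}
    (hγ : ∀ j, γ j → (low R μ o).Good pn eG b0 (f j))
    (D : Sdat N γ (fun i => aN (low R μ o) (f i)) (fun i => RN (low R μ o) R.b1 (f i))) {E : Finset ℕ}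
    (hE : ∀ i < N, aN (low R μ o) (f (i + 1)) = aN (low R μ o) (f i) + 1 → ¬ γ i → i ∈ E) {L1 L2 Lk : ℕ}
    (hKr : 0 < Kr) (hLk : Kr ≤ Lk) (pu : ℕ → Prop)
    (hpu : ∀ t ≤ N, pu (aN (low R μ o) (f t)) → ¬ mixed (low R μ o) R.b1 Wd (f t)) {Nn : ℕ}
    (hNn : 40 * ((3 * ρ.K) ^ 5 * (6 * 100 ^ 2 * ρ.K)) + 2 * ρ.K ≤ Nn)
    {K'' : ℝ} (hK'' : (100 * ρ.K) ^ 20 ≤ K'') (hs : pn.s ≤ s) (h7 : 7 ≤ μ) (hm5 : 5 * c0 + 4 ≤ 2 * m)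
    {e1 : ℝ} {K' : ℕ} (hKK : ρ.K ≤ K')
    (he1 : Real.sqrt (((2 * K' + 3 : ℕ) : ℝ) * ((2 * (K' + 1 : ℕ) + 1) * eG)) ≤ e1) (he2 : 10 * eG ≤ e1) :
    ∀ j k, j ∉ XN M N (fun i => aN (low R μ o) (f i)) (fun i => RN (low R μ o) R.b1 (f i)) E →
      j ∈ CS M N γ (fun i => aN (low R μ o) (f i)) (fun i => RN (low R μ o) R.b1 (f i)) 0 N →
      AdmO N (fun i => aN (low R μ o) (f i)) pu L1 L2 Kr Lk j k →
      ColN (low R μ o) pn ρ.K eG hf R.b1 M s N g Wd j (lx N (fun i => aN (low R μ o) (f i)) Kr k) e1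
        (A0s ρ.c' eG ε Nn g + 3 / ρ.c' * prE R.Q ((lc R.C μ o).Bad K'' (f (j + 1)) (bc R))) K' := by
  intro j k hX hj A
  have hK := hρ.K1
  have h1 := colN_all (R := low R μ o) hf (low_ok o hμ H.ok) (c := 100) (by norm_num) (lb_low H hlb μ o) hρ.c'0
    (hρ.c'1.trans (by norm_num)) hN Hn hγ D hE hKr hLk pu hpu
    (fun t ht => H931.lv_of H hσ hρ H.aA H.rm hB o hμ ht) (H101.low_cap o hμ H.cap) hNn
    ((cB_le hK).trans hK'') hs H.hs.1 (c1 := 7) (by norm_num) h7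
    (by show 5 * c0 + 4 ≤ 2 * R.m; rw [H.hm]; exact hm5) hKK he1 he2 j k hX hj A
  rw [wS_eq] at h1
  exact h1

end run

end Vale.Agent.P106.U.H457
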