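import Vale.Agent.P127.U.Mic.Colp
import Vale.Agent.P127.Stk.LibDom

/-!
# P106 / U / H457 : unknown given the letter `G` implies unknown given a near function `D` of `G` (helper457)

`B x ω` (`x : κ`) is a family of events (for instance `|A ω - x| ≤ r`).  If for every value of `G` no
`B x` has conditional probability more than `1 - c`, and `D = f G` outside probability `η`, then outside
probability `4 η / c` no `B x` has conditional probability more than `1 - c / 2` given `D`.
-/

set_option autoImplicit false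

namespace Vale.Agent.P106.U.H457

open Finset Vale.Agent.P127 Vale.Agent.P127.Stk Vale.Agent.P127.U.Pin Vale.Agent.P127.U.Mic

variable {Ω : Type} [Fintype Ω] {κ γ δ : Type*}

theorem prE_eq_ex (P : Law Ω) (E : Ω → Prop) : prE P E = P.ex (fun ω => Law.ind (E ω)) := by
  classical
  unfold prE Law.ex
  rw [Finset.sum_filter]
  refine Finset.sum_congr rfl fun ω _ => ?_
  beta_reduce
  by_cases h : E ω
  · rw [if_pos h, Law.ind_of h, mul_one]
  · rw [if_neg h, Law.ind_not h, mul_zero]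

theorem prE_mono' (P : Law Ω) {E F : Ω → Prop} (h : ∀ ω, 0 < P.w ω → E ω → F ω) : prE P E ≤ prE P F := by
  rw [prE_eq_ex, prE_eq_ex]
  refine P.ex_mono fun ω hω => ind_mono (h ω hω)

theorem prE_add_le (P : Law Ω) {E F G : Ω → Prop} (h : ∀ ω, 0 < P.w ω → E ω → F ω ∨ G ω) :
    prE P E ≤ prE P F + prE P G := by
  rw [prE_eq_ex, prE_eq_ex, prE_eq_ex, ← P.ex_add]
  refine P.ex_mono fun ω hω => ?_
  by_cases hE : E ω
  · rw [Law.ind_of hE]
    rcases h ω hω hE with h1 | h1
    · rw [Law.ind_of h1]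
      have := ind_nonneg (G ω)
      linarith
    · rw [Law.ind_of h1]
      have := ind_nonneg (F ω)
      linarith
  · rw [Law.ind_not hE]
    exact add_nonneg (ind_nonneg _) (ind_nonneg _)

/-- decomposition of the probability of an event along a letter -/
theorem prE_sum (P : Law Ω) (X : Ω → δ) (E : Ω → Prop) :
    prE P E = ∑ x ∈ img X, prE P (fun ω => X ω = x ∧ E ω) := by
  rw [prE_eq_ex, ex_own_aux P X (fun _ ω => Law.ind (E ω))]
  refine Finset.sum_congr rfl fun x _ => ?_
  rw [prE_eq_ex]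
  refine P.ex_congr fun ω _ => ?_
  by_cases h1 : X ω = x
  · by_cases h2 : E ω
    · rw [Law.ind_of h1, Law.ind_of h2, Law.ind_of (p := X ω = x ∧ E ω) ⟨h1, h2⟩, one_mul]
    · rw [Law.ind_not h2, Law.ind_not (p := X ω = x ∧ E ω) (fun h => h2 h.2), mul_zero]
  · rw [Law.ind_not h1, Law.ind_not (p := X ω = x ∧ E ω) (fun h => h1 h.1), zero_mul]

/-- the bound for the law of `D := f G` -/
theorem unk_fn (P : Law Ω) (G : Ω → γ) (f : γ → δ) (B : κ → Ω → Prop) {c : ℝ}
    (hu : ∀ ω, 0 < P.w ω → ∀ x, prE P (fun ω' => G ω' = G ω ∧ B x ω') ≤ (1 - c) * P.pr G (G ω)) (x : κ)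
    (d : δ) : prE P (fun ω => f (G ω) = d ∧ B x ω) ≤ (1 - c) * P.pr (fun ω => f (G ω)) d := by
  classical
  have h1 := prE_sum P G (fun ω => f (G ω) = d ∧ B x ω)
  have h2 : P.pr (fun ω => f (G ω)) d = ∑ g ∈ img G, prE P (fun ω => G ω = g ∧ f (G ω) = d) := by
    rw [Law.pr_eq_ex, ← prE_eq_ex]
    exact prE_sum P G _
  rw [h1, h2, Finset.mul_sum]
  refine Finset.sum_le_sum fun g hg => ?_
  by_cases hd : f g = d
  · by_cases hp : 0 < P.pr G g
    · obtain ⟨ω, hω, hωg⟩ : ∃ ω, 0 < P.w ω ∧ G ω = g := by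
        by_contra hcon
        push Not at hcon
        have : P.pr G g = 0 := by
          unfold Law.pr
          refine Finset.sum_eq_zero fun ω hω => ?_
          have h3 : G ω = g := by simpa using hω
          rcases (P.nn ω).eq_or_lt with h4 | h4
          · exact h4.symm
          · exact absurd h3 (hcon ω h4)
        linarith
      have h3 := hu ω hω x
      rw [hωg] at h3
      have h4 : P.pr G g = prE P (fun ω => G ω = g ∧ f (G ω) = d) := by
        rw [Law.pr_eq_ex, ← prE_eq_ex]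
        refine le_antisymm (prE_mono' P fun ω' _ h => ⟨h, by rw [h]; exact hd⟩)
          (prE_mono' P fun ω' _ h => h.1)
      rw [← h4]
      refine le_trans (prE_mono' P fun ω' _ h => ?_) h3
      exact ⟨h.1, h.2.2⟩
    · have h0 : P.pr G g = 0 := le_antisymm (not_lt.1 hp) (P.pr_nonneg _ _)
      have h5 : ∀ E : Ω → Prop, prE P (fun ω => G ω = g ∧ E ω) = 0 := by
        intro E
        refine le_antisymm ?_ (prE_nonneg P _)
        rw [← h0, Law.pr_eq_ex, ← prE_eq_ex]
        exact prE_mono' P fun ω' _ h => h.1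
      rw [h5, h5, mul_zero]
  · have h5 : ∀ E : Ω → Prop, (∀ ω, E ω → f (G ω) = d) → prE P (fun ω => G ω = g ∧ E ω) = 0 := by
      intro E hE
      refine le_antisymm ?_ (prE_nonneg P _)
      have : prE P (fun _ : Ω => False) = 0 := by
        rw [prE_eq_ex]
        have : P.ex (fun _ => Law.ind False) = P.ex (fun _ => 0) :=
          P.ex_congr fun ω _ => Law.ind_not (p := False) id
        rw [this, P.ex_const]
      rw [← this]
      exact prE_mono' P fun ω' _ h => hd (by rw [← h.1]; exact hE _ h.2)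
    rw [h5 _ (fun ω h => h.1), h5 _ (fun ω h => h), mul_zero]

/-- **unknown given `G` ⇒ unknown given a near function `D` of `G`** -/
theorem unk_near (P : Law Ω) (G : Ω → γ) (D : Ω → δ) (f : γ → δ) (B : κ → Ω → Prop) {c η : ℝ} (hc : 0 < c)
    (hc1 : c ≤ 1)
    (hu : ∀ ω, 0 < P.w ω → ∀ x, prE P (fun ω' => G ω' = G ω ∧ B x ω') ≤ (1 - c) * P.pr G (G ω))
    (hf : prE P (fun ω => D ω ≠ f (G ω)) ≤ η) :
    P.ex (fun ω => Law.ind (∃ x, (1 - c / 2) * P.pr D (D ω) < prE P (fun ω' => D ω' = D ω ∧ B x ω'))) ≤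
      4 * η / c := by
  classical
  let bad : δ → Prop := fun d => ∃ x, (1 - c / 2) * P.pr D d < prE P (fun ω' => D ω' = d ∧ B x ω')
  have h1 : P.ex (fun ω => Law.ind (bad (D ω))) = ∑ d ∈ img D, prE P (fun ω => D ω = d ∧ bad (D ω)) := by
    rw [← prE_eq_ex]
    exact prE_sum P D _
  have key : ∀ d, prE P (fun ω => D ω = d ∧ bad (D ω)) ≤
      2 / c * (prE P (fun ω => D ω = d ∧ D ω ≠ f (G ω)) + prE P (fun ω => f (G ω) = d ∧ D ω ≠ f (G ω))) := by
    intro d
    have n1 := prE_nonneg P (fun ω => D ω = d ∧ D ω ≠ f (G ω))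
    have n2 := prE_nonneg P (fun ω => f (G ω) = d ∧ D ω ≠ f (G ω))
    by_cases hb : bad d
    · obtain ⟨x, hx⟩ := hb
      have e1 : prE P (fun ω => D ω = d ∧ B x ω) ≤ prE P (fun ω => f (G ω) = d ∧ B x ω) +
          prE P (fun ω => D ω = d ∧ D ω ≠ f (G ω)) :=
        prE_add_le P fun ω _ h => by
          by_cases h2 : D ω = f (G ω)
          · left; exact ⟨by rw [← h2]; exact h.1, h.2⟩
          · right; exact ⟨h.1, h2⟩
      have e2 := unk_fn P G f B hu x d
      have e3 : P.pr (fun ω => f (G ω)) d ≤ P.pr D d + prE P (fun ω => f (G ω) = d ∧ D ω ≠ f (G ω)) := by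
        rw [Law.pr_eq_ex, Law.pr_eq_ex, ← prE_eq_ex, ← prE_eq_ex]
        exact prE_add_le P fun ω _ h => by
          by_cases h2 : D ω = f (G ω)
          · left; rw [h2]; exact h
          · right; exact ⟨h, h2⟩
      have e4 : prE P (fun ω => D ω = d ∧ bad (D ω)) ≤ P.pr D d := by
        rw [Law.pr_eq_ex, ← prE_eq_ex]
        exact prE_mono' P fun ω _ h => h.1
      have e5 : (1 - c) * P.pr (fun ω => f (G ω)) d ≤
          (1 - c) * (P.pr D d + prE P (fun ω => f (G ω) = d ∧ D ω ≠ f (G ω))) :=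
        mul_le_mul_of_nonneg_left e3 (by linarith)
      have e6 : c / 2 * P.pr D d ≤ prE P (fun ω => D ω = d ∧ D ω ≠ f (G ω)) +
          prE P (fun ω => f (G ω) = d ∧ D ω ≠ f (G ω)) := by
        have : 0 ≤ c * prE P (fun ω => f (G ω) = d ∧ D ω ≠ f (G ω)) := mul_nonneg hc.le n2
        nlinarith
      refine e4.trans ?_
      rw [div_mul_eq_mul_div, le_div_iff₀ hc]
      linarith
    · have : prE P (fun ω => D ω = d ∧ bad (D ω)) ≤ 0 := by
        have h0 : prE P (fun _ : Ω => False) = 0 := by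
          rw [prE_eq_ex]
          have : P.ex (fun _ => Law.ind False) = P.ex (fun _ => 0) :=
            P.ex_congr fun ω _ => Law.ind_not (p := False) id
          rw [this, P.ex_const]
        rw [← h0]
        exact prE_mono' P fun ω _ h => hb (by rw [← h.1]; exact h.2)
      refine this.trans ?_
      positivity
  have s1 : ∑ d ∈ img D, prE P (fun ω => D ω = d ∧ D ω ≠ f (G ω)) ≤ η := by
    rw [← prE_sum P D]
    exact hf
  have s2 : ∑ d ∈ img D, prE P (fun ω => f (G ω) = d ∧ D ω ≠ f (G ω)) ≤ η := by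
    refine le_trans ?_ hf
    rw [prE_sum P (fun ω => f (G ω)) (fun ω => D ω ≠ f (G ω))]
    have : ∀ d ∈ img D, d ∉ img (fun ω => f (G ω)) → prE P (fun ω => f (G ω) = d ∧ D ω ≠ f (G ω)) = 0 := by
      intro d _ hd
      refine le_antisymm ?_ (prE_nonneg P _)
      have h0 : prE P (fun _ : Ω => False) = 0 := by
        rw [prE_eq_ex]
        have : P.ex (fun _ => Law.ind False) = P.ex (fun _ => 0) :=
          P.ex_congr fun ω _ => Law.ind_not (p := False) id
        rw [this, P.ex_const]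
      rw [← h0]
      exact prE_mono' P fun ω _ h => hd (mem_img.2 ⟨ω, h.1⟩)
    calc ∑ d ∈ img D, prE P (fun ω => f (G ω) = d ∧ D ω ≠ f (G ω)) =
        ∑ d ∈ (img D).filter (fun d => d ∈ img (fun ω => f (G ω))),
          prE P (fun ω => f (G ω) = d ∧ D ω ≠ f (G ω)) := by
          rw [Finset.sum_filter]
          refine Finset.sum_congr rfl fun d hd => ?_
          split_ifs with h
          · rfl
          · exact this d hd h
      _ ≤ ∑ d ∈ img (fun ω => f (G ω)), prE P (fun ω => f (G ω) = d ∧ D ω ≠ f (G ω)) := by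
          refine Finset.sum_le_sum_of_subset_of_nonneg (fun d hd => (Finset.mem_filter.1 hd).2)
            fun d _ _ => prE_nonneg P _
  have h2 : P.ex (fun ω => Law.ind (bad (D ω))) ≤ 2 / c * (η + η) := by
    rw [h1]
    calc _ ≤ ∑ d ∈ img D, 2 / c * (prE P (fun ω => D ω = d ∧ D ω ≠ f (G ω)) +
          prE P (fun ω => f (G ω) = d ∧ D ω ≠ f (G ω))) := Finset.sum_le_sum fun d _ => key d
      _ = 2 / c * (∑ d ∈ img D, prE P (fun ω => D ω = d ∧ D ω ≠ f (G ω)) +
          ∑ d ∈ img D, prE P (fun ω => f (G ω) = d ∧ D ω ≠ f (G ω))) := by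
          rw [← Finset.mul_sum, Finset.sum_add_distrib]
      _ ≤ _ := mul_le_mul_of_nonneg_left (add_le_add s1 s2) (by positivity)
  have h3 : 2 / c * (η + η) = 4 * η / c := by ring
  rw [← h3]
  exact h2

/-- with a further letter: `D` is a near function of `G` and of `Z`; unknown given `(G, Z)` -/
theorem unk_near' {ζ : Type*} (P : Law Ω) (G : Ω → γ) (Z : Ω → ζ) (D : Ω → δ) (f : γ → ζ → δ) (B : κ → Ω → Prop)
    {c η : ℝ} (hc : 0 < c) (hc1 : c ≤ 1)
    (hu : ∀ ω, 0 < P.w ω → ∀ x, prE P (fun ω' => (G ω' = G ω ∧ Z ω' = Z ω) ∧ B x ω') ≤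
      (1 - c) * P.pr (fun ω => (G ω, Z ω)) (G ω, Z ω))
    (hf : prE P (fun ω => D ω ≠ f (G ω) (Z ω)) ≤ η) :
    P.ex (fun ω => Law.ind (∃ x, (1 - c / 2) * P.pr D (D ω) < prE P (fun ω' => D ω' = D ω ∧ B x ω'))) ≤
      4 * η / c := by
  refine unk_near P (fun ω => (G ω, Z ω)) D (fun p => f p.1 p.2) B hc hc1 (fun ω hω x => ?_) hf
  refine le_trans (prE_mono' P fun ω' _ h => ?_) (hu ω hω x)
  have := Prod.mk.inj h.1
  exact ⟨⟨this.1, this.2⟩, h.2⟩

end Vale.Agent.P106.U.H457
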