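import Vale.Agent.P106.U.H457.SubFix
import Vale.Agent.P106.U.H465.SubT

/-!
# P106 / U / H457 : the FIX side of SUB from the literal `PSubT`

`fixT` : for a near-extremal system (`NEx`, `k ≤ lam / 8`, `d ≤ β`) and any label `A` of level `0`, shape `(h, h + q)`, with
`val W ≤ val A + 2 h log 2 + K0` there is `X` on two copies given `zl l t C` with `Agr (K 2^X 2^-q) A A'` or `X = q`, and
`lam E X ≤ 5 h + K`.
-/

set_option autoImplicit false

namespace Vale.Agent.P106.U.H457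

open Finset Vale.Agent.P127 Vale.Agent.P127.Stk Vale.Agent.P127.U Vale.Agent.P106.W Vale.Agent.P106.K Vale.Agent.P106.U
open Vale.Agent.P106.U.H118 (two two_supp)

/-- the marginal of two copies -/
theorem two_marg {Ω : Type} [Fintype Ω] {S : Type*} (P : Law Ω) (Z : Ω → S) (ω : Ω) :
    (two P Z).pr (fun x => x.fst) ω = P.w ω := by
  have h := Law.glue_pr (P := P) (Q := P) (X₁ := Z) (X₂ := Z) (fun _ => rfl) (fun ω => ω) ω
  rw [← Stk.pr_id P ω]
  exact h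

/-- entropy of a number of digits -/
theorem hc_small {Ω : Type} [Fintype Ω] (Q : Law Ω) (x : Ω → ℕ) {θ : ℝ} (hθ0 : 0 < θ) :
    Stk.hc Q x (fun _ => ()) ≤ θ * (Real.log 2 * Q.ex (fun w => (x w : ℝ))) + H868.Kth θ := by
  have a1 := H868.hc_dist Q (fun w => (x w : ℤ)) (fun _ => (0 : ℤ)) (fun _ => (0 : ℤ)) (fun _ => (0 : ℤ)) (fun _ => ()) hθ0
  have a2 : Q.ex (fun w => Real.log 2 * (|((x w : ℤ) : ℝ) - ((0 : ℤ) : ℝ)| + |((0 : ℤ) : ℝ) - ((0 : ℤ) : ℝ)|)) =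
      Real.log 2 * Q.ex (fun w => (x w : ℝ)) := by
    rw [← Q.ex_const_mul]
    refine Q.ex_congr fun w _ => ?_
    have : (0 : ℝ) ≤ x w := Nat.cast_nonneg _
    simp
  rw [a2] at a1
  refine le_trans (le_of_eq ?_) a1
  refine Stk.hc_congr Q ?_ ?_ ?_ ?_
  · intro w w' _ _ e
    simp only [Prod.mk.injEq, Nat.cast_inj] at e
    exact e.1.1
  · intro w w' _ _ e
    simp only [Prod.mk.injEq] at e
    simp only [e.1]
  · intro w w' _ _ _
    rfl
  · intro w w' _ _ _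
    rfl

theorem fix_arith {Ex h k lam L2 K0 N Ks Kc Kt A0 At : ℝ} (l2 : 0 < L2) (hE : 0 ≤ Ex) (hh : 0 ≤ h) (h1 : lam ≤ 1)
    (hk1 : k ≤ lam / 8) (a0 : K0 ≤ A0) (at' : Kt ≤ At)
    (t1 : 3 / 2 * lam * L2 * Ex ≤ 4 * h * L2 + 2 * (K0 + N * L2) + Ks + 2 * ((1 + k) * Kc) +
      2 * (k * ((2 * h + Ex) * L2)) + 3 * (lam / 12 * (L2 * Ex) + Kt)) :
    lam * Ex * L2 ≤ 5 * h * L2 + (2 * (A0 + N * L2) + Ks + 2 * ((1 + 0 + k) * Kc) + 3 * At) := by
  have t2 : k * ((2 * h + Ex) * L2) ≤ lam / 8 * ((2 * h + Ex) * L2) :=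
    mul_le_mul_of_nonneg_right hk1 (by positivity)
  have t3 : lam / 8 * (2 * h * L2) ≤ 1 / 8 * (2 * h * L2) :=
    mul_le_mul_of_nonneg_right (by linarith) (by positivity)
  have t4 : lam / 8 * ((2 * h + Ex) * L2) = lam / 8 * (2 * h * L2) + 1 / 8 * (lam * Ex * L2) := by ring
  have t5 : 3 / 2 * lam * L2 * Ex = 3 / 2 * (lam * Ex * L2) := by ring
  have t6 : lam / 12 * (L2 * Ex) = 1 / 12 * (lam * Ex * L2) := by ring
  have t7 : 0 ≤ h * L2 := by positivity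
  rw [t5, t6] at t1
  rw [t4] at t2
  linarith

theorem fixT (hS : PSubT) {c c1 lam k N K0 : ℝ} (hc1 : 1 ≤ c) (hcc : 1 ≤ c1) (h0 : 0 < lam)
    (h1 : lam ≤ 1) (hk : 0 ≤ k) (hk1 : k ≤ lam / 8) (hN : 0 ≤ N) :
    ∃ K : ℝ, 0 ≤ K ∧ ∀ (β d : ℝ) (Ω : Type) [Fintype Ω] (γ : Type) (P : Law Ω) (l : Ω → Ry) (t : Ω → ℝ) (C : Ω → γ) (L h q : ℕ)
      (W A : Ω → Cbx), d ≤ β → NEx c lam N k β d P l t C L h q W →
      (∀ ω, 0 < P.w ω → LbOk c1 L 0 (A ω) (l ω) (t ω) ∧ (A ω).u2 = (1 / 2 : ℝ) ^ h ∧ (A ω).u1 = (1 / 2 : ℝ) ^ (h + q)) →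
      val lam P l t C h W ≤ val lam P l t C 0 A + 2 * h * Real.log 2 + K0 →
      ∃ X : Law.GT (zl l t C) (zl l t C) → ℕ,
        (∀ x, 0 < (two P (zl l t C)).w x → X x ≤ q ∧
          (Agr (K * (2 ^ X x * (1 / 2) ^ q)) (A x.fst) (A x.snd) (bl 0 (l x.fst) (t x.fst)) ∨ X x = q)) ∧
        lam * (two P (zl l t C)).ex (fun x => (X x : ℝ)) ≤ 5 * h + K := by
  obtain ⟨c2, Ks, hc2, hKs, hSub⟩ := hS c1 lam hcc h0.le h1
  obtain ⟨Kc, hKc, hcls⟩ := H513.cls_X (c := c2 + c) (c₁ := c) (lam := lam) (by linarith) (by linarith) h0.le h1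
  have l2 := two_pos_log
  set θ : ℝ := lam / 12 with hθ
  have hθ0 : 0 < θ := by rw [hθ]; linarith
  set K1 : ℝ := (2 * (|K0| + N * Real.log 2) + Ks + 2 * ((1 + 0 + k) * Kc) + 3 * |H868.Kth θ|) / Real.log 2 with hK1
  have hK10 : 0 ≤ K1 := by positivity
  refine ⟨K1 + Ks, by positivity, ?_⟩
  intro β d Ω _ γ P l t C L h q W A hd hne hA hv
  have hRL : h + q ≤ L := hne.hL
  obtain ⟨X, p, J, M, g1, g3⟩ := hSub Ω γ P l t C L h (h + q) A (by omega) hne.ok hA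
  refine ⟨X, fun x hx => ?_, ?_⟩
  · obtain ⟨q1, -, -, q4, -⟩ := g1 x hx
    rw [Nat.add_sub_cancel_left] at q1 q4
    refine ⟨q1, q4.imp (fun h5 => ?_) (fun h5 => h5)⟩
    obtain ⟨σ, s0, s1, s2, s3⟩ := h5
    have hle : Ks * (2 ^ X x * (1 / 2 : ℝ) ^ q) ≤ (K1 + Ks) * (2 ^ X x * (1 / 2 : ℝ) ^ q) :=
      mul_le_mul_of_nonneg_right (by linarith) (by positivity)
    exact ⟨σ, s0, fun k => (s1 k).trans hle, s2.trans hle, s3.trans hle⟩
  set Q := two P (zl l t C) with hQ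
  have hxq : ∀ x, 0 < Q.w x → X x ≤ q := fun x hx => by
    have := (g1 x hx).1
    omega
  set Ex := Q.ex (fun w => (X w : ℝ)) with hEx
  have hEx0 : 0 ≤ Ex := Q.ex_nonneg fun w _ => Nat.cast_nonneg _
  -- entropy of x
  have e1 : Stk.hc Q X (fun _ => ()) ≤ θ * (Real.log 2 * Ex) + H868.Kth θ := hc_small Q X hθ0
  -- the two labels
  have cc2 : c2 ≤ c2 + c := by linarith
  have hc20 : 0 ≤ c2 + c := by linarith
  have mj := H875.valX_le_XX (C := C) (e := fun _ => (0, q)) (c := c2 + c) (lam := lam) (k := k) (La := 0) (L := L) (a := 0)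
    h0.le h1 hk le_rfl (two_marg P (zl l t C)) (W := J) (fun w hw => lbOk_mono' cc2 (g1 w hw).2.2.2.2.1)
  have mm := H875.valX_le_XX (C := C) (e := fun _ => (0, q)) (c := c2 + c) (lam := lam) (k := k) (La := 0) (L := L) (a := 0)
    h0.le h1 hk le_rfl (two_marg P (zl l t C)) (W := M) (fun w hw => lbOk_mono' cc2 (g1 w hw).2.2.2.2.2.2.2.1)
  have hXX := hcls Ω γ P l t C (fun _ => (0, q)) L 0 k 0 hk le_rfl (Nat.zero_le _)
  have dj : Q.ex (fun w => dsh (J w) (0, q)) ≤ (2 * h + Ex) * Real.log 2 := by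
    have : Q.ex (fun w => dsh (J w) (0, q)) ≤ Q.ex (fun w => 2 * h * Real.log 2 + Real.log 2 * (X w : ℝ)) := by
      refine Q.ex_mono fun w hw => ?_
      obtain ⟨-, -, -, -, -, q1, q2, -⟩ := g1 w hw
      rw [dsh_shape q1 q2]
      have hle : X w ≤ h + q := (hxq w hw).trans (by omega)
      rw [Nat.cast_sub hle]
      push_cast
      have i1 : (0 : ℝ) ≤ h := Nat.cast_nonneg _
      have i2 : (0 : ℝ) ≤ X w := Nat.cast_nonneg _
      have a1 : |(h : ℝ) - 0| = h := by rw [sub_zero, abs_of_nonneg (Nat.cast_nonneg _)]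
      have a2 : |(h : ℝ) + q - (X w : ℝ) - q| ≤ h + (X w : ℝ) := by
        rw [abs_le]
        constructor <;> linarith
      rw [a1]
      nlinarith
    rw [Q.ex_add, Q.ex_const, Q.ex_const_mul] at this
    linarith
  have dm : Q.ex (fun w => dsh (M w) (0, q)) ≤ (2 * h + Ex) * Real.log 2 := by
    have : Q.ex (fun w => dsh (M w) (0, q)) ≤ Q.ex (fun w => 2 * h * Real.log 2 + Real.log 2 * (X w : ℝ)) := by
      refine Q.ex_mono fun w hw => ?_
      obtain ⟨-, -, q3, -, -, -, -, -, q1, q2⟩ := g1 w hw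
      rw [dsh_shape q1 q2]
      push_cast
      have i1 : (0 : ℝ) ≤ h := Nat.cast_nonneg _
      have i3 : (0 : ℝ) ≤ p w := Nat.cast_nonneg _
      have i4 : (p w : ℝ) ≤ X w := by exact_mod_cast q3
      have a1 : |(h : ℝ) + p w - 0| = h + p w := by rw [sub_zero, abs_of_nonneg (by linarith)]
      have a2 : |(h : ℝ) + q - q| = h := by rw [add_sub_cancel_right, abs_of_nonneg i1]
      rw [a1, a2]
      nlinarith
    rw [Q.ex_add, Q.ex_const, Q.ex_const_mul] at this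
    linarith
  have hD := Dd_ge P l t C h (fun ω hω => (hne.ok ω hω).2)
  have hND : -(N * Real.log 2) ≤ N * Dd P l t C h := by nlinarith
  have hex := hne.ex
  have hβ : 0 ≤ (β - d) * h * Real.log 2 := by
    have : 0 ≤ β - d := by linarith
    positivity
  unfold valX at mj mm
  simp only [zero_mul, add_zero] at mj mm hXX
  have kj := mul_le_mul_of_nonneg_left dj hk
  have km := mul_le_mul_of_nonneg_left dm hk
  set XX0 := XX c lam k 0 P l t C (fun _ => (0, q)) L 0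
  set XX2 := XX (c2 + c) lam k 0 P l t C (fun _ => (0, q)) L 0
  set vA := val lam P l t C 0 A
  set vW := val lam P l t C h W
  set vJ := val lam Q (fun x => l x.fst) (fun x => t x.fst) (fun x => C x.fst) 0 J
  set vM := val lam Q (fun x => l x.fst) (fun x => t x.fst) (fun x => C x.fst) 0 M
  have i1 : (0 : ℝ) ≤ h := Nat.cast_nonneg _
  -- collect
  have mj' : vJ - k * Q.ex (fun w => dsh (J w) (0, q)) ≤ XX2 := mj
  have mm' : vM - k * Q.ex (fun w => dsh (M w) (0, q)) ≤ XX2 := mm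
  have hXX' : XX2 ≤ XX0 + (1 + k) * Kc := hXX
  have g3' : 2 * vA + 3 / 2 * lam * Real.log 2 * Ex - 3 * Stk.hc Q X (fun _ => ()) - Ks ≤ vJ + vM := g3
  have hex' : XX0 + (β - d) * h * Real.log 2 + N * Dd P l t C h ≤ vW := hex
  have hv' : vW ≤ vA + 2 * h * Real.log 2 + K0 := hv
  have t1 : 3 / 2 * lam * Real.log 2 * Ex ≤ 4 * h * Real.log 2 + 2 * (K0 + N * Real.log 2) + Ks + 2 * ((1 + k) * Kc) +
      2 * (k * ((2 * h + Ex) * Real.log 2)) + 3 * (θ * (Real.log 2 * Ex) + H868.Kth θ) := by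
    linarith
  have t4 : lam * Ex * Real.log 2 ≤ 5 * h * Real.log 2 + (2 * (|K0| + N * Real.log 2) + Ks + 2 * ((1 + 0 + k) * Kc) +
      3 * |H868.Kth θ|) :=
    fix_arith l2 hEx0 i1 h1 hk1 (le_abs_self _) (le_abs_self _) t1
  have t5 : lam * Ex ≤ (5 * h * Real.log 2 + (2 * (|K0| + N * Real.log 2) + Ks + 2 * ((1 + 0 + k) * Kc) +
      3 * |H868.Kth θ|)) / Real.log 2 := by
    rw [le_div_iff₀ l2]
    exact t4
  rw [add_div, mul_div_assoc, div_self l2.ne', mul_one] at t5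
  linarith

end Vale.Agent.P106.U.H457
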