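import Vale.Agent.P106.U.H404.ActF
import Vale.Agent.P106.U.H339.SubSh

/-!
# P106 / U / H457 : macro activity and the time of two copies (TEXT S1 (5), (7))

* `mact` : for `NEx` and `a ≤ h`: `N Dd(a) ≤ (2 + 4 k - β') a log 2 + (β' + ε - β + d) h log 2 + K`.
* `two_time` : if the times of two copies given `zl l t C` are within `D 2^-a` outside probability `ρ`, then
  `H(t_a | l, C) ≤ ρ (a + 1) log 2 + K(D)`.
* `tim` : hence `(N - 2 - 4 k + β') a log 2 ≤ N ρ (a + 1) log 2 + (β' + ε - β + d) h log 2 + K(D)`.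
-/

set_option autoImplicit false

namespace Vale.Agent.P106.U.H457

open Finset Vale.Agent.P127 Vale.Agent.P127.Stk Vale.Agent.P127.U Vale.Agent.P106.W Vale.Agent.P106.K Vale.Agent.P106.U
open Vale.Agent.P106.U.H118 (two two_supp)

/-- **MACRO ACT** -/
theorem mact {lam N k β' : ℝ} (hl0 : 0 ≤ lam) (hl1 : lam ≤ 1) (hk : 0 < k) (hN : 0 ≤ N) (hβ' : 0 ≤ β')
    (hF : FIXA lam N (4 * k) β') {c : ℝ} (hc : 1 ≤ c) {ε : ℝ} (hε : 0 < ε) :
    ∃ K : ℝ, 0 ≤ K ∧ ∀ (β d : ℝ) (Ω : Type) [Fintype Ω] (γ : Type) (P : Law Ω) (l : Ω → Ry) (t : Ω → ℝ) (C : Ω → γ)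
      (L h q : ℕ) (W : Ω → Cbx), NEx c lam N k β d P l t C L h q W → ∀ a : ℕ, a ≤ h →
      N * Dd P l t C a ≤ (2 + 4 * k - β') * a * Real.log 2 + (β' + ε - β + d) * h * Real.log 2 + K := by
  obtain ⟨K1, hK1, h1⟩ := H513.pExtX c lam hc hl0 hl1
  obtain ⟨K2, h2⟩ := H416.pWinX lam N (4 * k) N β' hl0 hl1 (by positivity) hN le_rfl hβ' hF c hc ε hε
  obtain ⟨K3, h3⟩ := H416.pAbs c lam (2 * k) N hc hl0 hl1 (by positivity) hN
  have hc0 : 0 ≤ c := by linarith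
  have hl2 : 0 ≤ Real.log 2 := Real.log_nonneg (by norm_num)
  rw [show 4 * k / 2 = 2 * k by ring] at h2
  rw [show 2 * k / 2 = k by ring] at h3
  refine ⟨(1 + N + 2 * k) * K1 + |K2| + |K3|, by positivity, ?_⟩
  intro β d Ω _ γ P l t C L h q W hne a ha
  have hhL : h ≤ L := by have := hne.hL; omega
  obtain ⟨w, rfl⟩ := Nat.exists_eq_add_of_le ha
  have g1 := h1 Ω γ P l t C (fun _ => ((0 : ℕ), q)) L 0 a (2 * k) N (by positivity) hN (by omega) hne.ok
  have g2 := h2 Ω γ P l t C (fun _ => ((0 : ℕ), q)) L a w (by omega) hne.ok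
  have g3 := h3 Ω γ P l t C (0, q) L 0 (Nat.zero_le _) hne.ok
  have g4 := H404.val_le_XX (c := c) (lam := lam) (k := 2 * k) (La := N) (C := C) (P := P) (l := l) (t := t) (L := L)
    (h := a + w) (e0 := (0, q)) hc0 (by positivity) hN hhL (W := W) (fun ω hω => by
      obtain ⟨q1, q2, q3⟩ := hne.lb ω hω
      exact ⟨q1, by rw [q2, pow_zero], q3⟩)
  have g5 := hne.ex
  rw [Nat.zero_add] at g1
  have a2 := le_abs_self K2
  have a3 := le_abs_self K3
  have e0 : (0 : ℝ) ≤ ε * a * Real.log 2 := by positivity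
  push_cast at g5 ⊢
  set X0 := XX c lam k 0 P l t C (fun _ => (0, q)) L 0
  set X1 := XX c lam (2 * k) N P l t C (fun _ => (0, q)) L 0
  set X2 := XX c lam (2 * k) N P l t C (fun _ => (0, q)) L a
  set X3 := XX c lam (2 * k) N P l t C (fun _ => (0, q)) L (a + w)
  set vW := val lam P l t C (a + w) W
  set D1 := Dd P l t C a
  set D2 := Dd P l t C (a + w)
  have g1' : X2 ≤ X1 + (2 + 2 * (2 * k)) * a * Real.log 2 + (1 + N + 2 * k) * K1 := g1
  have g2' : X3 ≤ X2 + (β' + ε) * w * Real.log 2 + N * (D2 - D1) + K2 := g2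
  have g3' : X1 ≤ X0 + K3 := g3
  have g4' : vW ≤ X3 := g4
  have g5' : X0 + (β - d) * (a + w) * Real.log 2 + N * D2 ≤ vW := g5
  have t1 : N * (D2 - D1) = N * D2 - N * D1 := by ring
  rw [t1] at g2'
  have t2 : N * D1 ≤ (2 + 2 * (2 * k)) * a * Real.log 2 + (β' + ε) * w * Real.log 2 - (β - d) * (a + w) * Real.log 2 +
      ((1 + N + 2 * k) * K1 + |K2| + |K3|) := by linarith
  have t3 : (2 + 2 * (2 * k)) * a * Real.log 2 + (β' + ε) * w * Real.log 2 - (β - d) * (a + w) * Real.log 2 =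
      (2 + 4 * k - β') * a * Real.log 2 + (β' + ε - β + d) * (a + w) * Real.log 2 - ε * a * Real.log 2 := by ring
  linarith

/-- **two copies of the time** -/
theorem two_time {D : ℝ} (hD : 0 ≤ D) {Ω : Type} [Fintype Ω] {γ : Type} (P : Law Ω) (l : Ω → Ry) (t : Ω → ℝ) (C : Ω → γ)
    (ht : ∀ ω, 0 < P.w ω → 0 ≤ t ω ∧ t ω ≤ 1) (a : ℕ) :
    Stk.hc P (fun ω => fl1 a (t ω)) (fun ω => (l ω, C ω)) ≤
      (two P (zl l t C)).ex (fun x => if |t x.fst - t x.snd| ≤ D * (1 / 2 : ℝ) ^ a then 0 else 1) * ((a + 1) * Real.log 2) +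
        (2 * Real.log 2 + Real.log ((2 * ⌈D⌉₊ + 3 : ℕ) : ℝ)) := by
  classical
  set Z := zl l t C with hZ
  set Q := two P Z with hQ
  have l2 : (0 : ℝ) < Real.log 2 := Real.log_pos (by norm_num)
  have hind := H339.two_ind P Z (fun ω => fl1 a (t ω))
  -- time given the other time
  set n : ℕ := ⌈D⌉₊ + 1 with hn
  have hrng : ∀ ω, 0 < P.w ω → fl1 a (t ω) ∈ Finset.Icc (0 : ℤ) (2 ^ a) := by
    intro ω hω
    obtain ⟨h0, h1⟩ := ht ω hω
    rw [Finset.mem_Icc]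
    unfold fl1
    refine ⟨Int.floor_nonneg.2 (by positivity), ?_⟩
    have h2 : (2 : ℝ) ^ a * t ω ≤ 2 ^ a := mul_le_of_le_one_right (by positivity) h1
    have h3 : ⌊(2 : ℝ) ^ a * t ω⌋ ≤ ⌊((2 ^ a : ℤ) : ℝ)⌋ := Int.floor_le_floor (by push_cast; exact h2)
    rwa [Int.floor_intCast] at h3
  have hnear : ∀ x : Law.GT Z Z, |t x.fst - t x.snd| ≤ D * (1 / 2 : ℝ) ^ a →
      fl1 a (t x.fst) ∈ Finset.Icc (fl1 a (t x.snd) - n) (fl1 a (t x.snd) + n) := by
    intro x hx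
    have hp : (0 : ℝ) < 2 ^ a := by positivity
    have h1 : |(2 : ℝ) ^ a * t x.fst - 2 ^ a * t x.snd| ≤ D := by
      rw [← mul_sub, abs_mul, abs_of_pos hp]
      have h2 : (2 : ℝ) ^ a * |t x.fst - t x.snd| ≤ 2 ^ a * (D * (1 / 2 : ℝ) ^ a) := mul_le_mul_of_nonneg_left hx hp.le
      have h3 : (2 : ℝ) ^ a * (D * (1 / 2 : ℝ) ^ a) = D := by
        rw [one_div, inv_pow]
        field_simp
      linarith
    rw [Finset.mem_Icc]
    unfold fl1
    have f1 := Int.floor_le ((2 : ℝ) ^ a * t x.fst)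
    have f2 := Int.lt_floor_add_one ((2 : ℝ) ^ a * t x.fst)
    have f3 := Int.floor_le ((2 : ℝ) ^ a * t x.snd)
    have f4 := Int.lt_floor_add_one ((2 : ℝ) ^ a * t x.snd)
    have hDc : D ≤ ⌈D⌉₊ := Nat.le_ceil D
    obtain ⟨b1, b2⟩ := abs_le.1 h1
    have hnR : (n : ℝ) = ⌈D⌉₊ + 1 := by rw [hn]; push_cast; ring
    constructor
    · have : ((⌊(2 : ℝ) ^ a * t x.snd⌋ - (n : ℤ) : ℤ) : ℝ) < ((⌊(2 : ℝ) ^ a * t x.fst⌋ + 1 : ℤ) : ℝ) := by
        push_cast
        rw [hnR]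
        linarith
      have h5 := Int.cast_lt.1 this
      omega
    · have : ((⌊(2 : ℝ) ^ a * t x.fst⌋ : ℤ) : ℝ) < ((⌊(2 : ℝ) ^ a * t x.snd⌋ + (n : ℤ) + 1 : ℤ) : ℝ) := by
        push_cast
        rw [hnR]
        linarith
      have h5 := Int.cast_lt.1 this
      omega
  set M1 : ℝ := ((2 * ⌈D⌉₊ + 3 : ℕ) : ℝ) with hM1
  set M2 : ℝ := ((2 ^ a + 1 : ℕ) : ℝ) with hM2
  have hM1p : 1 ≤ M1 := by rw [hM1]; exact_mod_cast (by omega : 1 ≤ 2 * ⌈D⌉₊ + 3)
  have hM2p : 1 ≤ M2 := by rw [hM2]; exact_mod_cast Nat.le_add_left 1 (2 ^ a)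
  have hcard1 : ∀ s : ℤ, ((Finset.Icc (s - n) (s + n)).card : ℝ) = M1 := by
    intro s
    rw [Int.card_Icc, show s + (n : ℤ) + 1 - (s - n) = ((2 * ⌈D⌉₊ + 3 : ℕ) : ℤ) by rw [hn]; push_cast; ring, Int.toNat_natCast]
  have hcard2 : ((Finset.Icc (0 : ℤ) (2 ^ a)).card : ℝ) = M2 := by
    rw [Int.card_Icc, show ((2 : ℤ) ^ a + 1 - 0) = ((2 ^ a + 1 : ℕ) : ℤ) by push_cast; ring, Int.toNat_natCast]
  have hgb := Q.gibbs_cond (fun x => fl1 a (t x.fst)) (fun x => (fl1 a (t x.snd), Z x.fst))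
    (fun k y => (if k ∈ Finset.Icc (y.1 - (n : ℤ)) (y.1 + n) then 1 / (2 * M1) else 0) +
      (if k ∈ Finset.Icc (0 : ℤ) (2 ^ a) then 1 / (2 * M2) else 0))
    (fun k y => by split_ifs <;> positivity) ?_ ?_
  rotate_left
  · intro y F
    rw [Finset.sum_add_distrib]
    have b1 : ∑ k ∈ F, (if k ∈ Finset.Icc (y.1 - (n : ℤ)) (y.1 + n) then 1 / (2 * M1) else 0) ≤ 1 / 2 := by
      rw [← Finset.sum_filter, Finset.sum_const, nsmul_eq_mul]
      have c1 : ((F.filter (fun k => k ∈ Finset.Icc (y.1 - (n : ℤ)) (y.1 + n))).card : ℝ) ≤ M1 := by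
        rw [← hcard1 y.1]
        exact_mod_cast Finset.card_le_card fun k hk => (Finset.mem_filter.1 hk).2
      calc _ ≤ M1 * (1 / (2 * M1)) := mul_le_mul_of_nonneg_right c1 (by positivity)
        _ = 1 / 2 := by field_simp
    have b2 : ∑ k ∈ F, (if k ∈ Finset.Icc (0 : ℤ) (2 ^ a) then 1 / (2 * M2) else 0) ≤ 1 / 2 := by
      rw [← Finset.sum_filter, Finset.sum_const, nsmul_eq_mul]
      have c1 : ((F.filter (fun k => k ∈ Finset.Icc (0 : ℤ) (2 ^ a))).card : ℝ) ≤ M2 := by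
        rw [← hcard2]
        exact_mod_cast Finset.card_le_card fun k hk => (Finset.mem_filter.1 hk).2
      calc _ ≤ M2 * (1 / (2 * M2)) := mul_le_mul_of_nonneg_right c1 (by positivity)
        _ = 1 / 2 := by field_simp
    linarith
  · intro x hx
    have h1 := hrng x.fst (two_supp hx).1
    rw [if_pos h1]
    have : 0 < 1 / (2 * M2) := by positivity
    split_ifs <;> positivity
  have h1 : Stk.hc Q (fun x => fl1 a (t x.fst)) (fun x => (fl1 a (t x.snd), Z x.fst)) ≤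
      Q.ex (fun x => (if |t x.fst - t x.snd| ≤ D * (1 / 2 : ℝ) ^ a then (0 : ℝ) else 1) * ((a + 1) * Real.log 2) +
        (Real.log 2 + Real.log M1)) := by
    refine hgb.trans (Q.ex_mono fun x hx => ?_)
    have hm := hrng x.fst (two_supp hx).1
    rw [if_pos hm]
    by_cases hc : |t x.fst - t x.snd| ≤ D * (1 / 2 : ℝ) ^ a
    · rw [if_pos hc, if_pos (hnear x hc), zero_mul, zero_add]
      have p1 : 1 / (2 * M1) ≤ 1 / (2 * M1) + 1 / (2 * M2) := by
        have : 0 < 1 / (2 * M2) := by positivity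
        linarith
      have p2 := Real.log_le_log (by positivity : (0 : ℝ) < 1 / (2 * M1)) p1
      have p3 : Real.log (1 / (2 * M1)) = -(Real.log 2 + Real.log M1) := by
        rw [one_div, Real.log_inv, Real.log_mul (by norm_num) (by positivity)]
      rw [p3] at p2
      linarith
    · rw [if_neg hc, one_mul]
      have p0 : 0 ≤ (if fl1 a (t x.fst) ∈ Finset.Icc (fl1 a (t x.snd) - (n : ℤ)) (fl1 a (t x.snd) + n) then 1 / (2 * M1) else 0) := by
        split_ifs <;> positivity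
      have p2 := Real.log_le_log (by positivity : (0 : ℝ) < 1 / (2 * M2)) (le_add_of_nonneg_left p0 : 1 / (2 * M2) ≤ _ + 1 / (2 * M2))
      have p3 : Real.log (1 / (2 * M2)) = -(Real.log 2 + Real.log M2) := by
        rw [one_div, Real.log_inv, Real.log_mul (by norm_num) (by positivity)]
      rw [p3] at p2
      have p4 : Real.log M2 ≤ (a + 1) * Real.log 2 := by
        have h3 : M2 ≤ 2 ^ (a + 1) := by
          rw [hM2]
          push_cast
          rw [pow_succ]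
          have : (1 : ℝ) ≤ 2 ^ a := one_le_pow₀ (by norm_num)
          linarith
        have h4 := Real.log_le_log (by positivity) h3
        rw [Real.log_pow] at h4
        push_cast at h4
        exact h4
      have p5 : 0 ≤ Real.log M1 := Real.log_nonneg hM1p
      linarith
  have h2 : Q.ex (fun x => (if |t x.fst - t x.snd| ≤ D * (1 / 2 : ℝ) ^ a then (0 : ℝ) else 1) * ((a + 1) * Real.log 2) +
        (Real.log 2 + Real.log M1)) =
      Q.ex (fun x => if |t x.fst - t x.snd| ≤ D * (1 / 2 : ℝ) ^ a then (0 : ℝ) else 1) * ((a + 1) * Real.log 2) +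
        (Real.log 2 + Real.log M1) := by
    rw [Q.ex_add, Q.ex_const]
    have : (fun x : Law.GT Z Z => (if |t x.fst - t x.snd| ≤ D * (1 / 2 : ℝ) ^ a then (0 : ℝ) else 1) * ((a + 1) * Real.log 2)) =
        fun x => ((a + 1) * Real.log 2) * (if |t x.fst - t x.snd| ≤ D * (1 / 2 : ℝ) ^ a then (0 : ℝ) else 1) := by
      funext x
      ring
    rw [this, Q.ex_const_mul]
    ring
  -- remove the level 0 of the time
  have h3 : Stk.hc P (fun ω => fl1 a (t ω)) (fun ω => (l ω, C ω)) ≤ Real.log 2 +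
      Stk.hc P (fun ω => fl1 a (t ω)) Z := by
    have q1 := Stk.hc_le_add' P (fun ω => fl1 a (t ω)) (fun ω => fl1 0 (t ω)) (fun ω => (l ω, C ω))
    have q2 : Stk.hc P (fun ω => fl1 0 (t ω)) (fun ω => (l ω, C ω)) ≤ Real.log 2 := by
      have := H404.Dd_zero_ge P l t C ht
      unfold Dd at this
      push_cast at this
      linarith
    have q3 : Stk.hc P (fun ω => fl1 a (t ω)) (fun ω => (fl1 0 (t ω), (l ω, C ω))) ≤
        Stk.hc P (fun ω => fl1 a (t ω)) Z := by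
      refine Stk.hc_mono_right P _ ?_
      intro ω ω' _ _ e
      simp only [Prod.mk.injEq] at e
      show (l ω, fl1 0 (t ω), C ω) = (l ω', fl1 0 (t ω'), C ω')
      rw [e.1, e.2.1, e.2.2]
    linarith
  rw [h2, hind] at h1
  linarith

/-- **TIM** -/
theorem tim {lam N k β' : ℝ} (hl0 : 0 ≤ lam) (hl1 : lam ≤ 1) (hk : 0 < k) (hN : 0 ≤ N) (hβ' : 0 ≤ β')
    (hF : FIXA lam N (4 * k) β') {c : ℝ} (hc : 1 ≤ c) {ε : ℝ} (hε : 0 < ε) {D : ℝ} (hD : 0 ≤ D) :
    ∃ K : ℝ, 0 ≤ K ∧ ∀ (β d : ℝ) (Ω : Type) [Fintype Ω] (γ : Type) (P : Law Ω) (l : Ω → Ry) (t : Ω → ℝ) (C : Ω → γ)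
      (L h q : ℕ) (W : Ω → Cbx), NEx c lam N k β d P l t C L h q W → ∀ a : ℕ, a ≤ h →
      (N - 2 - 4 * k + β') * a * Real.log 2 ≤
        N * (two P (zl l t C)).ex (fun x => if |t x.fst - t x.snd| ≤ D * (1 / 2 : ℝ) ^ a then 0 else 1) *
          ((a + 1) * Real.log 2) + (β' + ε - β + d) * h * Real.log 2 + K := by
  obtain ⟨K, hK, h⟩ := mact hl0 hl1 hk hN hβ' hF hc hε
  have l2 : (0 : ℝ) < Real.log 2 := Real.log_pos (by norm_num)
  have hM : 0 ≤ Real.log ((2 * ⌈D⌉₊ + 3 : ℕ) : ℝ) := Real.log_nonneg (by exact_mod_cast (by omega : 1 ≤ 2 * ⌈D⌉₊ + 3))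
  refine ⟨K + N * (2 * Real.log 2 + Real.log ((2 * ⌈D⌉₊ + 3 : ℕ) : ℝ)), by positivity, ?_⟩
  intro β d Ω _ γ P l t C L h' q W hne a ha
  have h1 := h β d Ω γ P l t C L h' q W hne a ha
  have h2 := two_time hD P l t C (fun ω hω => (hne.ok ω hω).2) a
  unfold Dd at h1
  have h3 := mul_le_mul_of_nonneg_left h2 hN
  linarith

end Vale.Agent.P106.U.H457
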