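import Vale.Agent.P106.U.H61.NrmDefs
import Vale.Agent.P106.U.H457.FixT
import Vale.Agent.P106.U.H457.Tim
import Vale.Agent.P106.U.H428.AlphaF
import Vale.Agent.P106.U.H428.Join
import Vale.Agent.P106.U.H465.Meet

/-!
# P106 / U / H457 : event and letter of the start (`pEv : H61.PEv`)

FIX side of SUB (`fixT`) + Markov: two copies of the label given `zl l t C` have close absolute functionals (`Rl`) outside a
small probability. `tim`: the absolute `α` is small with positive probability. K-bound (`pkb`) + `rel`: the rounded functional is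
one of `M` values which depend only on `zl l t C`.
-/

set_option autoImplicit false

namespace Vale.Agent.P106.U.H457

open Finset Vale.Agent.P127 Vale.Agent.P127.Stk Vale.Agent.P127.U Vale.Agent.P106.W Vale.Agent.P106.K Vale.Agent.P106.U
open Vale.Agent.P106.U.H118 (two two_supp)
open Vale.Agent.P106.U.H428 (Fa gk W0 Ag)

/-- THEOREM SUB -/
theorem pSubT : PSubT := H339.subT_of H428.pJoin H465.pMeet

theorem prE_ex {Ω : Type} [Fintype Ω] (P : Law Ω) (A : Ω → Prop) [DecidablePred A] :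
    prE P A = P.ex (fun ω => if A ω then 1 else 0) := by
  unfold prE Law.ex
  rw [Finset.sum_filter]
  refine Finset.sum_congr rfl fun ω _ => ?_
  by_cases h : A ω <;> simp [h]

/-- Markov's inequality -/
theorem markov {Ω : Type} [Fintype Ω] (P : Law Ω) (X : Ω → ℝ) (A : Ω → Prop) [DecidablePred A] {b : ℝ} (hb : 0 < b)
    (hX : ∀ ω, 0 < P.w ω → 0 ≤ X ω) (hA : ∀ ω, 0 < P.w ω → ¬ A ω → b ≤ X ω) :
    P.ex (fun ω => if A ω then 0 else 1) ≤ P.ex X / b := by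
  rw [le_div_iff₀ hb, mul_comm, ← P.ex_const_mul]
  refine P.ex_mono fun ω hω => ?_
  by_cases h : A ω
  · simp only [h, if_true, mul_zero]
    exact hX ω hω
  · simp only [h, if_false, mul_one]
    exact hA ω hω h

/-- `zl` separates the ray, the integer part of the time and the letter -/
theorem zl_eq {Ω γ : Type} {l : Ω → Ry} {t : Ω → ℝ} {C : Ω → γ} {ω ω' : Ω} (h : zl l t C ω = zl l t C ω') :
    l ω = l ω' ∧ fl1 0 (t ω) = fl1 0 (t ω') ∧ C ω = C ω' := by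
  simp only [zl, Prod.mk.injEq] at h
  exact ⟨h.1, h.2.1, h.2.2⟩

/-- the relation of the two copies -/
def Rl (D : ℝ) {Ω : Type} (l : Ω → Ry) (t : Ω → ℝ) (h ρ : ℕ) (W : Ω → Cbx) (ω ω' : Ω) : Prop :=
  ∃ σ : ℝ, (σ = 1 ∨ σ = -1) ∧ Ag (D * (1 / 2 : ℝ) ^ ρ) (Fa h (W ω) (t ω)) (Fa h (W ω') (t ω')) (bl 0 (l ω) (t ω)) σ

theorem ag_mono {δ δ' : ℝ} (h : δ ≤ δ') {F F' : Cbx} {m : Ry} {σ : ℝ} (hA : Ag δ F F' m σ) : Ag δ' F F' m σ :=
  ⟨fun k => (hA.1 k).trans h, hA.2.1.trans h, hA.2.2.trans h⟩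

open Classical in
/-- **relation of two copies** : FIX side + Markov -/
theorem rel_pr {lam N : ℝ} (h0 : 0 < lam) (h1 : lam ≤ 1) (hN : 0 ≤ N) {k : ℝ} (hk : 0 ≤ k) (hk1 : k ≤ lam / 8) {c : ℝ}
    (hc : 1 ≤ c) {ρ1 : ℝ} (hρ1 : 0 < ρ1) {K1 : ℝ} (hK1 : 1 + 6 / (lam * ρ1) ≤ K1) :
    ∃ (D : ℝ) (h0' : ℕ), 0 ≤ D ∧ ∀ (β d : ℝ) (Ω : Type) [Fintype Ω] (γ : Type) (P : Law Ω) (l : Ω → Ry) (t : Ω → ℝ) (C : Ω → γ)
      (L h q : ℕ) (W : Ω → Cbx), h0' ≤ h → d ≤ β → NEx c lam N k β d P l t C L h q W → ∀ ρ : ℕ, (ρ : ℝ) + K1 * h ≤ q →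
      (two P (zl l t C)).ex (fun x => if Rl D l t h ρ W x.fst x.snd then 0 else 1) ≤ ρ1 := by
  obtain ⟨c', Ke, d0, hcc', hKe, hext⟩ := H513.ext_lab_fr hc
  have hc' : 1 ≤ c' := hc.trans hcc'
  obtain ⟨K, hK, hfix⟩ := fixT pSubT (K0 := Ke) hc hc' h0 h1 hk hk1 hN
  set D : ℝ := 7 * c ^ 2 * K + 48 * c ^ 2 * c' ^ 2 with hD
  have hlp : 0 < 6 / (lam * ρ1) := by positivity
  obtain ⟨n1, hn1⟩ := exists_nat_ge K
  refine ⟨D, max (n1 + 1) (d0 + 1), by positivity, ?_⟩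
  intro β d Ω _ γ P l t C L h q W hh hd hne ρ hρ
  have hh1 : n1 + 1 ≤ h := (le_max_left _ _).trans hh
  have hh2 : d0 + 1 ≤ h := (le_max_right _ _).trans hh
  have hhR : (1 : ℝ) ≤ h := by exact_mod_cast (by omega : 1 ≤ h)
  have hKh : K ≤ h := hn1.trans (by exact_mod_cast (by omega : n1 ≤ h))
  have hρ0 : (0 : ℝ) ≤ ρ := Nat.cast_nonneg _
  have hK1h : (1 + 6 / (lam * ρ1)) * h ≤ K1 * h := mul_le_mul_of_nonneg_right hK1 (by linarith)
  have hqh : (h : ℝ) ≤ q := by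
    have : (1 : ℝ) * h ≤ (1 + 6 / (lam * ρ1)) * h := mul_le_mul_of_nonneg_right (by linarith) (by linarith)
    linarith
  have hqh' : h ≤ q := by exact_mod_cast hqh
  -- labels of level 0
  have hlb : ∀ ω, 0 < P.w ω → LbOk c L (0 + h) (W ω) (l ω) (t ω) := fun ω hω => by
    rw [Nat.zero_add]
    exact (hne.lb ω hω).1
  obtain ⟨A, hA, -, hval⟩ := hext P l t C L 0 h W hlb
  have hshape : ∀ ω, 0 < P.w ω → LbOk c' L 0 (A ω) (l ω) (t ω) ∧ (A ω).u2 = (1 / 2 : ℝ) ^ h ∧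
      (A ω).u1 = (1 / 2 : ℝ) ^ (h + q) := fun ω hω => by
    obtain ⟨q1, q2, q3, -⟩ := hA ω hω
    obtain ⟨-, r2, r3⟩ := hne.lb ω hω
    refine ⟨q1, by rw [q2, r2, one_mul], ?_⟩
    rw [q3, r3, ← pow_add, Nat.add_comm]
  have hv := hval lam
  rw [Nat.zero_add] at hv
  obtain ⟨X, hX, hEX⟩ := hfix β d Ω γ P l t C L h q W A hd hne hshape hv
  set Q := two P (zl l t C) with hQ
  -- the relation
  have hrel : ∀ x, 0 < Q.w x → ¬ Rl D l t h ρ W x.fst x.snd → 6 / (lam * ρ1) * h ≤ (X x : ℝ) := by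
    intro x hx hnot
    by_contra hlt
    push Not at hlt
    apply hnot
    obtain ⟨hXq, hag⟩ := hX x hx
    have hXr : (X x : ℝ) + h + ρ ≤ q := by
      have : (1 + 6 / (lam * ρ1)) * (h : ℝ) = h + 6 / (lam * ρ1) * h := by ring
      linarith
    have hXn : X x + h + ρ ≤ q := by exact_mod_cast hXr
    have hag' : Agr (K * (2 ^ X x * (1 / 2) ^ q)) (A x.fst) (A x.snd) (bl 0 (l x.fst) (t x.fst)) := by
      rcases hag with h5 | h5
      · exact h5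
      · exfalso
        omega
    obtain ⟨e1, e2, -⟩ := zl_eq x.eq
    have p1 := (two_supp hx).1
    have p2 := (two_supp hx).2
    obtain ⟨w1, w2, w3⟩ := hne.lb x.fst p1
    obtain ⟨w1', w2', w3'⟩ := hne.lb x.snd p2
    obtain ⟨s1, s2, s3, s4⟩ := hA x.fst p1
    obtain ⟨s1', s2', s3', s4'⟩ := hA x.snd p2
    have H := W0.of (hne.ok x.fst p1).1 (hne.ok x.fst p1).2.1 (hne.ok x.fst p1).2.2 w1 w2 w3
    have H' := W0.of (hne.ok x.snd p2).1 (hne.ok x.snd p2).2.1 (hne.ok x.snd p2).2.2 w1' w2' w3'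
    rw [← e1] at H'
    have hin := s1'.inn
    rw [← e1] at hin
    obtain ⟨σ, hσ, hAg⟩ := H428.ag_of_agr hc hc' hK d0 h q (X x) (W x.fst) (W x.snd) (A x.fst) (A x.snd) (l x.fst)
      (t x.fst) (t x.snd) H H' e2 (by omega) (by omega) (hshape x.fst p1).2.1 (hshape x.snd p2).2.1 s1'.α2 s1'.κ2 hin s4 s4'
      hag'
    refine ⟨σ, hσ, ag_mono ?_ hAg⟩
    refine mul_le_mul_of_nonneg_left (pow_le_pow_of_le_one (by norm_num) (by norm_num) (by omega)) (by positivity)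
  have hm := markov Q (fun x => (X x : ℝ)) (fun x => Rl D l t h ρ W x.fst x.snd) (b := 6 / (lam * ρ1) * h) (by positivity)
    (fun x _ => Nat.cast_nonneg _) hrel
  refine hm.trans ?_
  rw [div_le_iff₀ (by positivity)]
  have e : ρ1 * (6 / (lam * ρ1) * h) = 6 * h / lam := by field_simp
  rw [e, le_div_iff₀ h0]
  linarith

open Classical in
/-- the absolute `α` is large only with small probability, or the times are close -/
theorem tau_le {lam N k β d c : ℝ} {D ρ1 : ℝ} (hD : 0 ≤ D) {Ω : Type} [Fintype Ω] {γ : Type} {P : Law Ω} {l : Ω → Ry}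
    {t : Ω → ℝ} {C : Ω → γ} {L h q : ℕ} {W : Ω → Cbx} (hne : NEx c lam N k β d P l t C L h q W) {ρ a : ℕ} (ha : a ≤ h)
    (hR : (two P (zl l t C)).ex (fun x => if Rl D l t h ρ W x.fst x.snd then 0 else 1) ≤ ρ1) :
    (two P (zl l t C)).ex (fun x => if |t x.fst - t x.snd| ≤ (c + 2 * D + 2) * (1 / 2 : ℝ) ^ a then (0 : ℝ) else 1) ≤
      ρ1 + P.ex (fun ω => if (2 : ℝ) ^ a ≤ |(Fa h (W ω) (t ω)).α| then (0 : ℝ) else 1) := by
  set Q := two P (zl l t C) with hQ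
  have e1 : Q.ex (fun x => if (2 : ℝ) ^ a ≤ |(Fa h (W x.snd) (t x.snd)).α| then (0 : ℝ) else 1) =
      P.ex (fun ω => if (2 : ℝ) ^ a ≤ |(Fa h (W ω) (t ω)).α| then (0 : ℝ) else 1) :=
    Law.glue_ex' (P := P) (Q := P) (X₁ := zl l t C) (X₂ := zl l t C) (fun _ => rfl)
      (fun ω => if (2 : ℝ) ^ a ≤ |(Fa h (W ω) (t ω)).α| then (0 : ℝ) else 1)
  have e2 : Q.ex (fun x => if |t x.fst - t x.snd| ≤ (c + 2 * D + 2) * (1 / 2 : ℝ) ^ a then (0 : ℝ) else 1) ≤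
      Q.ex (fun x => (if Rl D l t h ρ W x.fst x.snd then (0 : ℝ) else 1) +
        (if (2 : ℝ) ^ a ≤ |(Fa h (W x.snd) (t x.snd)).α| then (0 : ℝ) else 1)) := by
    refine Q.ex_mono fun x hx => ?_
    by_cases hr : Rl D l t h ρ W x.fst x.snd
    · by_cases hb : (2 : ℝ) ^ a ≤ |(Fa h (W x.snd) (t x.snd)).α|
      · rw [if_pos hr, if_pos hb, add_zero, if_pos]
        obtain ⟨e1, e2, -⟩ := zl_eq x.eq
        have p1 := (two_supp hx).1
        have p2 := (two_supp hx).2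
        obtain ⟨w1, w2, w3⟩ := hne.lb x.fst p1
        obtain ⟨w1', w2', w3'⟩ := hne.lb x.snd p2
        have H := W0.of (hne.ok x.fst p1).1 (hne.ok x.fst p1).2.1 (hne.ok x.fst p1).2.2 w1 w2 w3
        have H' := W0.of (hne.ok x.snd p2).1 (hne.ok x.snd p2).2.1 (hne.ok x.snd p2).2.2 w1' w2' w3'
        rw [← e1] at H'
        obtain ⟨σ, hσ, hA⟩ := hr
        refine H428.time hD hσ ha H H' e2 (ag_mono ?_ hA) hb
        have : (1 / 2 : ℝ) ^ ρ ≤ 1 := pow_le_one₀ (by norm_num) (by norm_num)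
        nlinarith
      · rw [if_pos hr, if_neg hb]
        split_ifs <;> norm_num
    · rw [if_neg hr]
      split_ifs <;> norm_num
  rw [Q.ex_add, e1] at e2
  linarith

/-- arithmetic of the time -/
theorem tim_arith {N β₀ θ' ε η k β β' τ Kt h a L2 : ℝ} (hNp : 0 < N) (hN2 : 2 ≤ N) (hβ₀ : 0 < β₀) (hθ : 0 < θ')
    (hε : ε = θ' * β₀ / 32) (hη3 : η ≤ ε) (hη2 : k ≤ β₀ / 8) (hββ : β₀ ≤ β) (hβ' : β ≤ β')
    (hβ'η : β' ≤ β + η) (l2 : 0 < L2) (hh : 0 < h) (ha : θ' * h ≤ a) (hτ : τ ≤ 1)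
    (hK : (N * L2 + Kt) / (θ' * β₀ / 8 * L2) ≤ h)
    (ht : (N - 2 - 4 * k + β') * a * L2 ≤ N * τ * ((a + 1) * L2) + (β' + ε - β + η) * h * L2 + Kt) :
    4 * (β₀ / (16 * N)) ≤ τ := by
  have hN : 0 ≤ N := hNp.le
  have ha0 : 0 < a := lt_of_lt_of_le (by positivity) ha
  have hεp : 0 < ε := by rw [hε]; positivity
  have f1 : β₀ / 2 * a * L2 ≤ (N - 2 - 4 * k + β') * a * L2 := by
    refine mul_le_mul_of_nonneg_right (mul_le_mul_of_nonneg_right ?_ ha0.le) l2.le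
    linarith
  have f2 : (β' + ε - β + η) * h * L2 ≤ 3 * ε * h * L2 := by
    refine mul_le_mul_of_nonneg_right (mul_le_mul_of_nonneg_right ?_ hh.le) l2.le
    linarith
  have f3 : 3 * ε * h ≤ 3 * β₀ / 32 * a := by
    have e : 3 * ε * h = 3 * β₀ / 32 * (θ' * h) := by rw [hε]; ring
    rw [e]
    exact mul_le_mul_of_nonneg_left ha (by positivity)
  have f4 : N * L2 + Kt ≤ β₀ / 8 * a * L2 := by
    rw [div_le_iff₀ (by positivity)] at hK
    have g2 : h * (θ' * β₀ / 8 * L2) = β₀ / 8 * (θ' * h) * L2 := by ring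
    rw [g2] at hK
    exact hK.trans (mul_le_mul_of_nonneg_right (mul_le_mul_of_nonneg_left ha (by positivity)) l2.le)
  have f5 : N * τ * ((a + 1) * L2) ≤ N * τ * a * L2 + N * L2 := by
    have h1 : N * τ * L2 ≤ N * 1 * L2 :=
      mul_le_mul_of_nonneg_right (mul_le_mul_of_nonneg_left hτ hN) l2.le
    have h2 : N * τ * ((a + 1) * L2) = N * τ * a * L2 + N * τ * L2 := by ring
    rw [h2]
    linarith
  have f6 := mul_le_mul_of_nonneg_right f3 l2.le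
  have f7 : β₀ / 4 * a * L2 ≤ N * τ * a * L2 := by
    have h1 : 0 ≤ β₀ / 32 * a * L2 := by positivity
    have h2 : 3 * β₀ / 32 * a * L2 = 3 * (β₀ / 32 * a * L2) := by ring
    have h3 : β₀ / 8 * a * L2 = 4 * (β₀ / 32 * a * L2) := by ring
    have h4 : β₀ / 4 * a * L2 = 8 * (β₀ / 32 * a * L2) := by ring
    have h5 : β₀ / 2 * a * L2 = 16 * (β₀ / 32 * a * L2) := by ring
    rw [h2] at f6
    rw [h3] at f4
    rw [h5] at f1
    rw [h4]
    linarith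
  have f8 : β₀ / 4 ≤ N * τ := by
    have h3 : 0 < a * L2 := by positivity
    refine le_of_mul_le_mul_right ?_ h3
    linarith
  have f9 : β₀ / 4 = N * (4 * (β₀ / (16 * N))) := by
    field_simp
    ring
  rw [f9] at f8
  exact le_of_mul_le_mul_left f8 hNp

open Classical in
/-- the letter -/
theorem letter {Ω ζ κ : Type} [Fintype Ω] {P : Law Ω} {Z : Ω → ζ} {g : Ω → κ} {M : ℕ} {S : ζ → Finset κ}
    (hS : ∀ z, (S z).card ≤ M) {A : Ω → Prop} {p1 p2 : ℝ} (h1 : P.ex (fun ω => if g ω ∈ S (Z ω) then 0 else 1) ≤ p1)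
    (h2 : p2 ≤ P.ex (fun ω => if A ω then 1 else 0)) :
    ∃ (E : Ω → Prop) (G : Ω → Fin (M + 1)), p2 - p1 ≤ prE P E ∧ (∀ ω, E ω → A ω) ∧
      ∀ ω ω', E ω → E ω' → Z ω = Z ω' → G ω = G ω' → g ω = g ω' := by
  refine ⟨fun ω => A ω ∧ g ω ∈ S (Z ω),
    fun ω => if hω : g ω ∈ S (Z ω) then
      ⟨((S (Z ω)).equivFin ⟨_, hω⟩).1, (((S (Z ω)).equivFin ⟨_, hω⟩).2.trans_le (hS _)).trans (Nat.lt_succ_self _)⟩
      else 0, ?_, fun ω h => h.1, ?_⟩
  · rw [prE_ex]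
    have h3 : P.ex (fun ω => (if A ω then (1 : ℝ) else 0)) ≤
        P.ex (fun ω => (if A ω ∧ g ω ∈ S (Z ω) then (1 : ℝ) else 0) + (if g ω ∈ S (Z ω) then 0 else 1)) := by
      refine P.ex_mono fun ω _ => ?_
      by_cases h1 : A ω <;> by_cases h2 : g ω ∈ S (Z ω) <;> simp [h1, h2]
    rw [P.ex_add] at h3
    linarith
  · intro ω ω' hE hE' hz hG
    have m1 := hE.2
    have m2 := hE'.2
    simp only [dif_pos m1, dif_pos m2, Fin.mk.injEq] at hG
    have key : ∀ (T T' : Finset κ) (x y : κ) (hx : x ∈ T) (hy : y ∈ T'), T = T' →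
        (T.equivFin ⟨x, hx⟩).1 = (T'.equivFin ⟨y, hy⟩).1 → x = y := by
      intro T T' x y hx hy hT hxy
      subst hT
      have := T.equivFin.injective (Fin.ext hxy)
      simpa using this
    exact key _ _ _ _ m1 m2 (by rw [hz]) hG

open Classical in
theorem pEv : H61.PEv := by
  intro lam N β₀ hl0 hl1 hlb hN2
  have hN : 0 ≤ N := by linarith
  have hNp : 0 < N := by linarith
  have hβ₀ : 0 < β₀ := by linarith
  set ρ1 : ℝ := β₀ / (16 * N) with hρ1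
  have hρ1p : 0 < ρ1 := by positivity
  refine ⟨1 + 6 / (lam * ρ1), ρ1, by positivity, hρ1p, fun θ hθ => ?_⟩
  set θ' : ℝ := min θ 1 with hθ'
  have hθ'p : 0 < θ' := lt_min hθ one_pos
  have hθ'1 : θ' ≤ 1 := min_le_right _ _
  set ε : ℝ := θ' * β₀ / 32 with hε
  have hεp : 0 < ε := by positivity
  set η : ℝ := min (min (lam / 8) (β₀ / 8)) ε with hη
  have hηp : 0 < η := by
    rw [hη]
    exact lt_min (lt_min (by linarith) (by linarith)) hεp
  have hη1 : η ≤ lam / 8 := (min_le_left _ _).trans (min_le_left _ _)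
  have hη2 : η ≤ β₀ / 8 := (min_le_left _ _).trans (min_le_right _ _)
  have hη3 : η ≤ ε := min_le_right _ _
  refine ⟨η, hηp, ?_⟩
  intro k β β' hk hkη hββ hβ' hβ'η hβ3 hF c hc
  have hβ'0 : 0 ≤ β' := by linarith
  obtain ⟨D, n1, hD, hrel⟩ := rel_pr hl0 hl1.le hN hk.le (hkη.trans hη1) hc hρ1p (le_refl (1 + 6 / (lam * ρ1)))
  obtain ⟨Kt, hKt, htim⟩ := tim hl0.le hl1.le hk hN hβ'0 hF hc hεp (D := c + 2 * D + 2) (by linarith)
  obtain ⟨M0, hM0⟩ := H428.rel c D hc hD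
  obtain ⟨n2, hn2⟩ := exists_nat_ge ((N * Real.log 2 + Kt) / (θ' * β₀ / 8 * Real.log 2))
  refine ⟨M0 + 1, max n1 (n2 + 1), ?_⟩
  intro Ω _ γ P l t C L h q W hh hne a ρ ha hρ
  have hh1 : n1 ≤ h := (le_max_left _ _).trans hh
  have hh2 : n2 + 1 ≤ h := (le_max_right _ _).trans hh
  have l2 : (0 : ℝ) < Real.log 2 := Real.log_pos (by norm_num)
  have hh0 : (0 : ℝ) ≤ h := Nat.cast_nonneg _
  have hhp : (0 : ℝ) < h := by exact_mod_cast (by omega : 0 < h)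
  -- two copies are related
  have hR := hrel β η Ω γ P l t C L h q W hh1 (by linarith) hne ρ hρ
  -- the K-bound
  obtain ⟨S, hS1, hS2⟩ := H339.pkb Ω _ _ P (zl l t C) (fun ω => gk h ρ (W ω) (t ω)) (Rl D l t h ρ W) M0 ρ1 hR (by
    intro ω' hω'
    obtain ⟨S, hS, hS'⟩ := hM0 h ρ (W ω') (t ω')
    refine ⟨S, hS, fun ω hω hz hr => ?_⟩
    obtain ⟨e1, e2, -⟩ := zl_eq hz
    obtain ⟨σ, hσ, hA⟩ := hr
    obtain ⟨w1, w2, w3⟩ := hne.lb ω hω
    obtain ⟨w1', w2', w3'⟩ := hne.lb ω' hω'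
    have H := W0.of (hne.ok ω hω).1 (hne.ok ω hω).2.1 (hne.ok ω hω).2.2 w1 w2 w3
    have H' := W0.of (hne.ok ω' hω').1 (hne.ok ω' hω').2.1 (hne.ok ω' hω').2.2 w1' w2' w3'
    rw [← e1] at H'
    have hρq : ρ ≤ q := by
      have : (ρ : ℝ) ≤ q := by
        have : 0 ≤ (1 + 6 / (lam * ρ1)) * h := by positivity
        linarith
      exact_mod_cast this
    exact hS' q q (W ω) (l ω) (t ω) σ hρq hρq H H' e2 hσ hA)
  -- the time
  have ha'h : min a h ≤ h := min_le_right _ _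
  have ha'θ : θ' * h ≤ ((min a h : ℕ) : ℝ) := by
    rw [Nat.cast_min]
    refine le_min ?_ ?_
    · exact (mul_le_mul_of_nonneg_right (min_le_left _ _) hh0).trans ha
    · have := mul_le_mul_of_nonneg_right hθ'1 hh0
      linarith
  have ht := htim β η Ω γ P l t C L h q W hne (min a h) ha'h
  have hτα := tau_le hD hne ha'h hR
  have hτ1 : (two P (zl l t C)).ex (fun x =>
      if |t x.fst - t x.snd| ≤ (c + 2 * D + 2) * (1 / 2 : ℝ) ^ (min a h) then (0 : ℝ) else 1) ≤ 1 := by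
    have h1 := (two P (zl l t C)).ex_mono (f := fun x =>
      if |t x.fst - t x.snd| ≤ (c + 2 * D + 2) * (1 / 2 : ℝ) ^ (min a h) then (0 : ℝ) else 1) (g := fun _ => (1 : ℝ))
      (fun x _ => by split_ifs <;> norm_num)
    rwa [Law.ex_const] at h1
  have h4 := tim_arith hNp hN2 hβ₀ hθ'p hε hη3 (hkη.trans hη2) hββ hβ' hβ'η l2 hhp ha'θ hτ1
    (hn2.trans (by exact_mod_cast (by omega : n2 ≤ h))) ht
  have h5 : 2 * ρ1 ≤ P.ex (fun ω => if |(Fa h (W ω) (t ω)).α| < 2 ^ (min a h) then (1 : ℝ) else 0) := by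
    have e : P.ex (fun ω => if |(Fa h (W ω) (t ω)).α| < 2 ^ (min a h) then (1 : ℝ) else 0) =
        P.ex (fun ω => if (2 : ℝ) ^ (min a h) ≤ |(Fa h (W ω) (t ω)).α| then (0 : ℝ) else 1) := by
      refine P.ex_congr fun ω _ => ?_
      by_cases h1 : |(Fa h (W ω) (t ω)).α| < 2 ^ (min a h)
      · rw [if_pos h1, if_neg (not_le.2 h1)]
      · rw [if_neg h1, if_pos (not_lt.1 h1)]
    rw [e]
    linarith
  obtain ⟨E, G, hE1, hE2, hE3⟩ := letter hS1 hS2 h5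
  refine ⟨E, G, by linarith, fun ω _ hω => (hE2 ω hω).le.trans (pow_le_pow_right₀ (by norm_num) (min_le_left _ _)), ?_⟩
  intro ω ω' _ _ hE hE' e1 e2 e3 hG
  refine hE3 ω ω' hE hE' ?_ hG
  show (l ω, fl1 0 (t ω), C ω) = (l ω', fl1 0 (t ω'), C ω')
  rw [e1, e2, e3]

end Vale.Agent.P106.U.H457
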