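import Vale.Agent.P106.U.H457.CWa
import Vale.Agent.P106.U.H931.Base

/-!
# P106 / U / H457 : `MIC.cW` at a step of type (ii) (helper457)

`R : S3.Run`, step `k`, its good time step `q`, frame `f ≤ k`, late step `i`.

* `rho_W'` : the ratio of the normalisations is known given `W'`.
* `al_pair` : two points with the same ray side, near a line of the plane `(s, TT)` and separated in time: the slope of the line
  of the ray side is determined.
* `num_al` : numbers; `cW_le`, `cW_m` : the weak collinearity, `MIC.cW ≤ (36 ε + 2 P(Bad) + 6 2^(-2g)) / c'`.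
-/

set_option autoImplicit false

namespace Vale.Agent.P106.U.H457

open Finset Vale.Agent.P127 Vale.Agent.P127.Stk Vale.Agent.P106.W Vale.Agent.P106.U
open Vale.Agent.P106.K (Ry RyOk bl Bin)
open Vale.Agent.P127.U.CellD (q2 rd q2_pos q2_add q2_le q2_mul_pow)
open Vale.Agent.P127.U.Mic (colp colp_mono_cond colp_mono_var colp_nonneg pair_near_le ind_mono ind_nonneg)
open Vale.Agent.P106.U.Cell (Pth Ray)
open Vale.Agent.P106.U.S3 (Run)
open Vale.Agent.P106.U.H466 (TT rho)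
open Vale.Agent.P106.U.H931 (Lv okW clW det F0_W' cell_W' cB lat S_tW near_time side TT_rel TT_bd rho_pos rho_le le_rho
  ag_cN cT_cell time_le)

section geo

variable {Ω : Type} [Fintype Ω] {τ υ : Type} {R : Run Ω τ υ} {p : Run.Num} {K c' g' gU : ℝ}

/-- **the ratio of the normalisations is known given `W'`** -/
theorem rho_W' (h : R.Ok p K c' g' gU) (hK : 1 ≤ K) {c : ℝ} (hc : 1 ≤ c)
    (hlb : ∀ ω, 0 < R.Q.w ω → LbOk c R.L R.h (R.W ω) (R.ry ω) (R.t ω) ∧ (R.W ω).u2 = 1 ∧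
      (R.W ω).u1 = (1 / 2 : ℝ) ^ R.q) {f i : ℕ} (L : Lv R p K c f) (hfi : f ≤ i) (hi : i ≤ R.n) {ω ω' : Ω}
    (hω : 0 < R.Q.w ω) (hω' : 0 < R.Q.w ω') (e : R.W' ω = R.W' ω') :
    |rho R.C f i ω' - rho R.C f i ω| ≤
      362 * K ^ 6 * (6 * c ^ 2 * K) * q2 (R.C.rk f + R.m * R.b1) + 4 * K ^ 4 * q2 (R.C.rk i) := by
  have hK0 : 0 < K := by linarith
  set b := R.m * R.b1 with hb
  set M : ℝ := 6 * c ^ 2 * K with hMd
  have hM : 1 ≤ M := by
    rw [hMd]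
    nlinarith [sq_nonneg (c - 1)]
  have hM0 : 0 < M := by linarith
  have D := det h hK hc hlb (i := f) (by have := L.le; omega)
  have eF := D.eF ω ω' hω hω' e
  have eT := D.eT ω ω' hω hω' e
  have es := D.es ω ω' hω hω' e
  have h1 := okW h hK L.le L.rk hω
  have h2 := okW h hK L.le L.rk hω'
  rw [← eF, ← es] at h2
  have hq : b ≤ R.q := by
    have := L.q
    omega
  have nr := H364.N4.nrW (by linarith) hM (H931.ok_mono (h.ok ω' hω') (by linarith)) h1 h2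
    (D.ev ω ω' hω hω' e) L.A hq L.b (clW h hK hc hlb hω hω' (F0_W' h hω hω' e).1)
  have ag := h.agW ω hω f L.le
  have alW := h.alW ω hω
  have kW := h1.k1
  set s := R.tW ω with hs
  set W := R.FW ω with hW
  set F1 := (R.C.F f ω).sh (s - R.C.s f ω) with hF1
  have hsf : R.C.s f ω = R.C.s f ω' := H683.s_T eT
  -- the coefficients
  have q1 := q2_pos (R.C.rk f)
  have q3 := q2_pos b
  have qA := q2_pos p.A'
  have qi := q2_pos (R.C.rk i)
  have H1 : q2 R.h ≤ q2 p.A' * q2 (2 * b) := by rw [← q2_add]; exact q2_le L.A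
  have H2 : q2 (2 * b) ≤ q2 b := q2_le (by omega)
  have dw := nr.w
  have dN := nr.N
  have hdw : 10 * (3 * K) ^ 2 * M * q2 b = 90 * K ^ 2 * M * q2 b := by ring
  rw [hdw] at dw
  -- `cN` of the frame
  have nf : F1.cN (R.C.l ω) s = (R.C.F f ω).cN (R.C.l ω) (R.C.s f ω) := H364.N4.sh_cN R.C f ω s
  have nf' : F1.cN (R.C.l ω') s = (R.C.F f ω').cN (R.C.l ω') (R.C.s f ω') := by
    rw [← H364.N4.sh_cN R.C f ω' s]
    show R.C.ga f (R.C.T f ω) - (R.C.ka f (R.C.T f ω) - (s - R.C.s f ω) * R.C.al f (R.C.T f ω)) * (R.C.l ω').w -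
        R.C.al f (R.C.T f ω) * (R.C.l ω').N s =
      R.C.ga f (R.C.T f ω') - (R.C.ka f (R.C.T f ω') - (s - R.C.s f ω') * R.C.al f (R.C.T f ω')) * (R.C.l ω').w -
        R.C.al f (R.C.T f ω') * (R.C.l ω').N s
    rw [eT, hsf]
  have d1 := H364.N4.cN_dif F1 (R.C.l ω) (R.C.l ω') s
  have d2 := H364.N4.cN_dif W (R.C.l ω) (R.C.l ω') s
  set a1 := (R.C.l ω').w - (R.C.l ω).w with ha1
  set a2 := (R.C.l ω').N s - (R.C.l ω).N s with ha2
  -- late step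
  have l1 : |W.cN (R.C.l ω) s - (R.C.F i ω).cN (R.C.l ω) (R.C.s i ω)| ≤ K * q2 (R.C.rk i) := (lat h hi le_rfl hω).ca
  have l2 : |W.cN (R.C.l ω') s - (R.C.F i ω').cN (R.C.l ω') (R.C.s i ω')| ≤ K * q2 (R.C.rk i) := by
    have := (lat h hi le_rfl hω').ca
    rwa [← eF, ← es] at this
  have g1 := ag_cN (h.ok ω hω) hfi
  have n0 := H683.cN_pos (i := i) (h.ok ω hω)
  have n0' := H683.cN_pos (i := i) (h.ok ω' hω')
  have m1 := (h.ok ω hω).n1 i
  have m1' := (h.ok ω' hω').n1 i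
  have m2 := (h.ok ω hω).n2 i
  rw [← nf] at g1
  have hrho : rho R.C f i ω = F1.cN (R.C.l ω) s / (R.C.F i ω).cN (R.C.l ω) (R.C.s i ω) := by
    unfold rho
    rw [nf]
  have hrho' : rho R.C f i ω' = F1.cN (R.C.l ω') s / (R.C.F i ω').cN (R.C.l ω') (R.C.s i ω') := by
    unfold rho
    rw [nf']
  rw [hrho, hrho']
  set x := F1.cN (R.C.l ω) s with hx
  set x' := F1.cN (R.C.l ω') s with hx'
  set n := (R.C.F i ω).cN (R.C.l ω) (R.C.s i ω) with hn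
  set n' := (R.C.F i ω').cN (R.C.l ω') (R.C.s i ω') with hn'
  set w := W.cN (R.C.l ω) s with hw
  set w' := W.cN (R.C.l ω') s with hw'
  -- bounds
  have e1 : |(x' - x) - (w' - w)| ≤ 91 * K ^ 3 * M * q2 (R.C.rk f + b) := by
    have : (x' - x) - (w' - w) = (W.ka - F1.ka) * a1 + (W.al - F1.al) * a2 := by
      rw [d1, d2]; ring
    rw [this]
    have t1 : |(W.ka - F1.ka) * a1| ≤ K * q2 (R.C.rk f) * (90 * K ^ 2 * M * q2 b) := by
      rw [abs_mul]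
      exact mul_le_mul ag.ka dw (abs_nonneg _) (by positivity)
    have t2 : |(W.al - F1.al) * a2| ≤ K * q2 (R.C.rk f) * (M * q2 b) := by
      rw [abs_mul]
      calc |W.al - F1.al| * |a2| ≤ |W.al - F1.al| * (M * (q2 p.A' * q2 b)) := by
            refine mul_le_mul_of_nonneg_left (dN.trans (mul_le_mul_of_nonneg_left (H1.trans ?_) hM0.le)) (abs_nonneg _)
            exact mul_le_mul_of_nonneg_left H2 qA.le
        _ = |W.al - F1.al| * q2 p.A' * (M * q2 b) := by ring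
        _ ≤ K * q2 (R.C.rk f) * (M * q2 b) := mul_le_mul_of_nonneg_right ag.al (by positivity)
    refine (abs_add_le _ _).trans ?_
    have k3 : K ^ 1 ≤ K ^ 3 := pow_le_pow_right₀ hK (by norm_num)
    rw [q2_add]
    calc _ ≤ K * q2 (R.C.rk f) * (90 * K ^ 2 * M * q2 b) + K * q2 (R.C.rk f) * (M * q2 b) := add_le_add t1 t2
      _ = (90 * K ^ 3 + K ^ 1) * (M * (q2 (R.C.rk f) * q2 b)) := by ring
      _ ≤ (90 * K ^ 3 + K ^ 3) * (M * (q2 (R.C.rk f) * q2 b)) :=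
          mul_le_mul_of_nonneg_right (by linarith) (by positivity)
      _ = _ := by ring
  have e2 : |w' - w| ≤ 271 * K ^ 3 * M * q2 b := by
    have : w' - w = -(W.ka * a1) - W.al * a2 := by rw [d2]; ring
    rw [this]
    have t1 : |W.ka * a1| ≤ 3 * K * (90 * K ^ 2 * M * q2 b) := by
      rw [abs_mul]
      exact mul_le_mul kW dw (abs_nonneg _) (by positivity)
    have t2 : |W.al * a2| ≤ K * (M * q2 b) := by
      rw [abs_mul]
      calc |W.al| * |a2| ≤ |W.al| * (M * (q2 p.A' * q2 b)) := by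
            refine mul_le_mul_of_nonneg_left (dN.trans (mul_le_mul_of_nonneg_left (H1.trans ?_) hM0.le)) (abs_nonneg _)
            exact mul_le_mul_of_nonneg_left H2 qA.le
        _ = |W.al| * q2 p.A' * (M * q2 b) := by ring
        _ ≤ K * (M * q2 b) := mul_le_mul_of_nonneg_right alW (by positivity)
    have t3 := abs_sub (-(W.ka * a1)) (W.al * a2)
    rw [abs_neg] at t3
    have k3 : K ^ 1 ≤ K ^ 3 := pow_le_pow_right₀ hK (by norm_num)
    calc _ ≤ 3 * K * (90 * K ^ 2 * M * q2 b) + K * (M * q2 b) := t3.trans (add_le_add t1 t2)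
      _ = (270 * K ^ 3 + K ^ 1) * (M * q2 b) := by ring
      _ ≤ (270 * K ^ 3 + K ^ 3) * (M * q2 b) := mul_le_mul_of_nonneg_right (by linarith) (by positivity)
      _ = _ := by ring
  have e3 : |(x' - n') - (x - n)| ≤ 91 * K ^ 3 * M * q2 (R.C.rk f + b) + 2 * (K * q2 (R.C.rk i)) := by
    have : (x' - n') - (x - n) = ((x' - x) - (w' - w)) + ((w' - n') - (w - n)) := by ring
    rw [this]
    refine (abs_add_le _ _).trans (add_le_add e1 ?_)
    refine (abs_sub _ _).trans ?_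
    linarith
  have e4 : |n' - n| ≤ 271 * K ^ 3 * M * q2 b + 2 * (K * q2 (R.C.rk i)) := by
    have : n' - n = (w' - w) - ((w' - n') - (w - n)) := by ring
    rw [this]
    refine (abs_sub _ _).trans (add_le_add e2 ?_)
    refine (abs_sub _ _).trans ?_
    linarith
  have e5 : |x - n| ≤ K * q2 (R.C.rk f) := by rw [abs_sub_comm]; exact g1
  have inv' : 1 / n' ≤ K := by
    rw [div_le_iff₀ n0']
    exact m1'
  have inv : 1 / n ≤ K := by
    rw [div_le_iff₀ n0]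
    exact m1
  have key : x' / n' - x / n = ((x' - n') - (x - n)) * (1 / n') - (x - n) * (n' - n) * (1 / n) * (1 / n') := by
    field_simp
    ring
  rw [key]
  have t1 : |((x' - n') - (x - n)) * (1 / n')| ≤
      (91 * K ^ 3 * M * q2 (R.C.rk f + b) + 2 * (K * q2 (R.C.rk i))) * K := by
    rw [abs_mul, abs_of_pos (by positivity : 0 < 1 / n')]
    exact mul_le_mul e3 inv' (by positivity) (by have := q2_pos (R.C.rk f + b); positivity)
  have t2 : |(x - n) * (n' - n) * (1 / n) * (1 / n')| ≤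
      K * q2 (R.C.rk f) * (271 * K ^ 3 * M * q2 b + 2 * (K * q2 (R.C.rk i))) * K * K := by
    rw [abs_mul, abs_mul, abs_mul, abs_of_pos (by positivity : 0 < 1 / n), abs_of_pos (by positivity : 0 < 1 / n')]
    exact mul_le_mul (mul_le_mul (mul_le_mul e5 e4 (abs_nonneg _) (by positivity)) inv (by positivity)
      (by positivity)) inv' (by positivity) (by positivity)
  have t3 := abs_sub (((x' - n') - (x - n)) * (1 / n')) ((x - n) * (n' - n) * (1 / n) * (1 / n'))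
  refine t3.trans ((add_le_add t1 t2).trans ?_)
  have k46 : K ^ 4 ≤ K ^ 6 := pow_le_pow_right₀ hK (by norm_num)
  have k24 : K ^ 2 ≤ K ^ 4 := pow_le_pow_right₀ hK (by norm_num)
  have q1l : q2 (R.C.rk f) ≤ 1 := by
    have := q2_le (Nat.zero_le (R.C.rk f))
    unfold q2 at this ⊢
    simpa using this
  have r1 : (91 * K ^ 4) * (M * (q2 (R.C.rk f) * q2 b)) ≤ (91 * K ^ 6) * (M * (q2 (R.C.rk f) * q2 b)) :=
    mul_le_mul_of_nonneg_right (by linarith) (by positivity)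
  have r2 : 2 * K ^ 2 * q2 (R.C.rk i) ≤ 2 * K ^ 4 * q2 (R.C.rk i) :=
    mul_le_mul_of_nonneg_right (by linarith) qi.le
  have r3 : 2 * K ^ 4 * q2 (R.C.rk i) * q2 (R.C.rk f) ≤ 2 * K ^ 4 * q2 (R.C.rk i) * 1 :=
    mul_le_mul_of_nonneg_left q1l (by positivity)
  rw [q2_add]
  calc (91 * K ^ 3 * M * (q2 (R.C.rk f) * q2 b) + 2 * (K * q2 (R.C.rk i))) * K +
        K * q2 (R.C.rk f) * (271 * K ^ 3 * M * q2 b + 2 * (K * q2 (R.C.rk i))) * K * K
      = (91 * K ^ 4) * (M * (q2 (R.C.rk f) * q2 b)) + 2 * K ^ 2 * q2 (R.C.rk i) +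
          271 * K ^ 6 * M * (q2 (R.C.rk f) * q2 b) + 2 * K ^ 4 * q2 (R.C.rk i) * q2 (R.C.rk f) := by ring
    _ ≤ (91 * K ^ 6) * (M * (q2 (R.C.rk f) * q2 b)) + 2 * K ^ 4 * q2 (R.C.rk i) +
          271 * K ^ 6 * M * (q2 (R.C.rk f) * q2 b) + 2 * K ^ 4 * q2 (R.C.rk i) * 1 := by linarith
    _ = _ := by ring

/-- error of the slope of the line -/
noncomputable def eE (K Bm η μ8 lag : ℝ) : ℝ := 2 * Bm * μ8 + 2 * η + K ^ 3 * lag + 16 * K ^ 6 * μ8

/-- **two separated points of one fibre near a line** -/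
theorem al_pair (h : R.Ok p K c' g' gU) {q k f js i b0 : ℕ} (hkq : k ≤ q) (hq : q ≤ R.n + p.J) (hfk : f ≤ k)
    (hrk : R.C.rk f = R.C.rk k) (hkj : k ≤ js) (hji : js ≤ i) (hi : i ≤ R.n)
    (r8 : R.C.rk k + 8 * R.C.μ ≤ R.C.rk js) (a8 : R.C.a js + 8 * R.C.μ ≤ R.C.a i)
    (hδ : 2 * K ^ 2 * q2 (R.C.rk k + 8 * R.C.μ) ≤ 1) (hrf : R.C.rk k + 8 * R.C.μ ≤ R.C.rf q) {ω ω' : Ω}
    (hω : 0 < R.Q.w ω) (hω' : 0 < R.Q.w ω') (eY : (R.Z q ω, R.C.cell q b0 ω) = (R.Z q ω', R.C.cell q b0 ω'))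
    {L : ℝ × ℝ} {η Bm r1 : ℝ} (hL : |L.2| ≤ Bm)
    (n1 : Nr (fun ω => 2 ^ R.C.a k * R.C.s i ω) (fun ω => 2 ^ R.C.rk k * TT R.C f i ω) η L ω)
    (n2 : Nr (fun ω => 2 ^ R.C.a k * R.C.s i ω) (fun ω => 2 ^ R.C.rk k * TT R.C f i ω) η L ω')
    (hr1 : 0 < r1) (hr8 : 4 * q2 (8 * R.C.μ) ≤ r1)
    (hS : r1 ≤ |2 ^ R.C.a k * R.C.s i ω' - 2 ^ R.C.a k * R.C.s i ω|) :
    |rho R.C f i ω * R.al q ω - ((R.C.F f ω).al - 2 ^ R.C.a k * q2 (R.C.rk k) * L.2)| * q2 (R.C.a k) ≤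
      q2 (R.C.rk k) * (2 / r1 * eE K Bm η (q2 (8 * R.C.μ)) (2 ^ R.C.rk k * q2 (R.rI q))) := by
  have hK := H683.K_one (h.ok ω hω)
  have hK0 : 0 < K := by linarith
  have hBm : 0 ≤ Bm := (abs_nonneg _).trans hL
  obtain ⟨f1, f2, f3⟩ := side h b0 hkq hq ω ω' hω hω' eY
  have hTf : R.C.T f ω = R.C.T f ω' := H683.T_mono hfk f2
  have hpp : |R.C.p ω - R.C.p ω'| ≤ q2 (R.C.rk f + 8 * R.C.μ) := by
    have h1 := h.Uf q hq ω ω' hω hω' (congrArg Prod.fst eY)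
    refine (H683.near_fl1 h1).trans (q2_le ?_)
    rw [hrk]
    exact hrf
  have hri : q2 (R.C.rk i) ≤ q2 (R.C.rk f + 8 * R.C.μ) := q2_le (by
    have := R.C.hk hji
    omega)
  have hrel := TT_rel (h.ok ω hω) (h.ok ω' hω') (hfk.trans hkj) hji (by rw [hrk]; exact r8) a8
    (by rw [hrk]; exact hδ) f1 hTf hpp (lat h hi hri hω) (lat h hi hri hω')
  have hlin := h.lin q hq ω ω' hω hω' (congrArg Prod.fst eY)
  have hke : R.C.a k + 8 * R.C.μ ≤ R.C.a i := by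
    have := R.C.ha hkj
    omega
  have s1 := S_tW h hi hke hω
  have s2 := S_tW h hi hke hω'
  have rp := rho_pos (h.ok ω hω) f i
  have rl := rho_le (h.ok ω hω) f i
  unfold Nr at n1 n2
  simp only at n1 n2
  set ρ := rho R.C f i ω with hρ
  set aF := (R.C.F f ω).al with haF
  set al := R.al q ω with hal
  set A : ℝ := 2 ^ R.C.a k with hA
  set U : ℝ := 2 ^ R.C.rk k with hU
  have hA0 : 0 < A := by rw [hA]; positivity
  have hU0 : 0 < U := by rw [hU]; positivity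
  have hAq : A * q2 (R.C.a k) = 1 := by rw [hA, mul_comm, mul_comm]; exact q2_mul_pow _
  have hUq : U * q2 (R.C.rk k) = 1 := q2_mul_pow _
  have qa := q2_pos (R.C.a k)
  have qk := q2_pos (R.C.rk k)
  have q8 := q2_pos (8 * R.C.μ)
  set S := A * R.C.s i ω with hSd
  set S' := A * R.C.s i ω' with hSd'
  set T := U * TT R.C f i ω with hTd
  set T' := U * TT R.C f i ω' with hTd'
  set tt := R.tW ω' - R.tW ω with htt
  set B := L.2 with hB
  -- `X`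
  set X := B - U * q2 (R.C.a k) * (aF - ρ * al) with hX
  set Δ := A * tt with hΔ
  have hXΔ : X * Δ = -(B * ((S' - S) - Δ)) + (B * (S' - S) - (T' - T)) +
      ((T' - T) - U * (ρ * (R.κ ω' - R.κ ω) + aF * tt)) + U * (ρ * (R.κ ω' - R.κ ω + al * tt)) := by
    have e1 : X * Δ = B * Δ - U * (A * q2 (R.C.a k)) * (aF - ρ * al) * tt := by rw [hX, hΔ]; ring
    rw [e1, hAq]
    ring
  have b1 : |B * ((S' - S) - Δ)| ≤ Bm * (2 * q2 (8 * R.C.μ)) := by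
    rw [abs_mul]
    refine mul_le_mul hL ?_ (abs_nonneg _) hBm
    have : (S' - S) - Δ = (S' - A * R.tW ω') - (S - A * R.tW ω) := by rw [hΔ, htt]; ring
    rw [this]
    refine (abs_sub _ _).trans ?_
    linarith
  have b2 : |B * (S' - S) - (T' - T)| ≤ 2 * η := by
    have : B * (S' - S) - (T' - T) = (T - (L.1 + B * S)) - (T' - (L.1 + B * S')) := by ring
    rw [this]
    refine (abs_sub _ _).trans ?_
    linarith
  have b3 : |(T' - T) - U * (ρ * (R.κ ω' - R.κ ω) + aF * tt)| ≤ 16 * K ^ 6 * q2 (8 * R.C.μ) := by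
    have : (T' - T) - U * (ρ * (R.κ ω' - R.κ ω) + aF * tt) =
        U * (TT R.C f i ω' - TT R.C f i ω - (ρ * (R.κ ω' - R.κ ω) + aF * tt)) := by rw [hTd, hTd']; ring
    rw [this, abs_mul, abs_of_pos hU0]
    calc U * _ ≤ U * (16 * K ^ 6 * q2 (R.C.rk f + 8 * R.C.μ)) := mul_le_mul_of_nonneg_left hrel hU0.le
      _ = 16 * K ^ 6 * (U * q2 (R.C.rk k)) * q2 (8 * R.C.μ) := by rw [hrk, q2_add]; ring
      _ = _ := by rw [hUq, mul_one]
  have b4 : |U * (ρ * (R.κ ω' - R.κ ω + al * tt))| ≤ K ^ 3 * (U * q2 (R.rI q)) := by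
    rw [abs_mul, abs_mul, abs_of_pos hU0, abs_of_pos rp]
    have t1 : ρ * |R.κ ω' - R.κ ω + al * tt| ≤ K ^ 2 * (K * q2 (R.rI q)) :=
      mul_le_mul rl hlin (abs_nonneg _) (by positivity)
    calc U * _ ≤ U * (K ^ 2 * (K * q2 (R.rI q))) := mul_le_mul_of_nonneg_left t1 hU0.le
      _ = _ := by ring
  have hE : |X * Δ| ≤ eE K Bm η (q2 (8 * R.C.μ)) (U * q2 (R.rI q)) := by
    rw [hXΔ]
    unfold eE
    have t1 := abs_add_le (-(B * ((S' - S) - Δ)) + (B * (S' - S) - (T' - T)) +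
      ((T' - T) - U * (ρ * (R.κ ω' - R.κ ω) + aF * tt))) (U * (ρ * (R.κ ω' - R.κ ω + al * tt)))
    have t2 := abs_add_le (-(B * ((S' - S) - Δ)) + (B * (S' - S) - (T' - T)))
      ((T' - T) - U * (ρ * (R.κ ω' - R.κ ω) + aF * tt))
    have t3 := abs_add_le (-(B * ((S' - S) - Δ))) (B * (S' - S) - (T' - T))
    rw [abs_neg] at t3
    linarith
  have hΔ1 : r1 / 2 ≤ |Δ| := by
    have h1 : |(S' - S) - Δ| ≤ 2 * q2 (8 * R.C.μ) := by
      have : (S' - S) - Δ = (S' - A * R.tW ω') - (S - A * R.tW ω) := by rw [hΔ, htt]; ring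
      rw [this]
      refine (abs_sub _ _).trans ?_
      linarith
    have h2 : |S' - S| ≤ |Δ| + |(S' - S) - Δ| := by
      have : S' - S = Δ + ((S' - S) - Δ) := by ring
      calc |S' - S| = |Δ + ((S' - S) - Δ)| := by rw [← this]
        _ ≤ _ := abs_add_le _ _
    linarith
  have hX1 : |X| ≤ 2 / r1 * eE K Bm η (q2 (8 * R.C.μ)) (U * q2 (R.rI q)) := by
    rw [abs_mul] at hE
    have h1 : |X| * (r1 / 2) ≤ |X| * |Δ| := mul_le_mul_of_nonneg_left hΔ1 (abs_nonneg _)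
    have h2 : |X| * (r1 / 2) ≤ eE K Bm η (q2 (8 * R.C.μ)) (U * q2 (R.rI q)) := h1.trans hE
    rw [div_mul_eq_mul_div, le_div_iff₀ hr1]
    linarith
  have hfin : ρ * al - (aF - A * q2 (R.C.rk k) * B) = A * q2 (R.C.rk k) * X := by
    have e1 : A * q2 (R.C.rk k) * X = A * q2 (R.C.rk k) * B -
        (U * q2 (R.C.rk k)) * (A * q2 (R.C.a k)) * (aF - ρ * al) := by rw [hX]; ring
    rw [e1, hUq, hAq]
    ring
  rw [hfin, abs_mul, abs_of_pos (by positivity : 0 < A * q2 (R.C.rk k))]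
  calc A * q2 (R.C.rk k) * |X| * q2 (R.C.a k) = (A * q2 (R.C.a k)) * (q2 (R.C.rk k) * |X|) := by ring
    _ = q2 (R.C.rk k) * |X| := by rw [hAq, one_mul]
    _ ≤ _ := mul_le_mul_of_nonneg_left hX1 qk.le

/-- numbers: the slope is known to `rk q + m` digits -/
theorem num_al {K c : ℝ} (hK : 1 ≤ K) (hc : 1 ≤ c) {c0 c1 m g M8 rk rq rI B1 Mm : ℕ} (hKc : K ≤ 2 ^ c0) (hcc : c ≤ 2 ^ c1)
    (hM : rq ≤ rk + Mm) (n1 : Mm + 3 * m + 8 * c0 + 8 ≤ M8) (n2 : Mm + 3 * m + 2 * c0 + 5 ≤ 2 * g)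
    (n3 : rq + 2 * m + 5 * c0 + 4 ≤ rI) (n4 : Mm + m + 10 * c0 + 2 * c1 + 15 ≤ B1) {Bm η r1 : ℝ}
    (hB : Bm = 4 * K ^ 3 / q2 m) (hη : η = q2 (2 * g) / q2 m) (hr : r1 = q2 m) :
    K ^ 2 * (q2 rk * (2 / r1 * eE K Bm η (q2 M8) (2 ^ rk * q2 rI)) +
      K * (362 * K ^ 6 * (6 * c ^ 2 * K) * q2 (rk + B1) + 4 * K ^ 4 * q2 (rk + M8))) ≤ q2 (rq + m) := by
  have hK0 : (0 : ℝ) ≤ K := by linarith
  have hc0 : (0 : ℝ) ≤ c := by linarith
  have pc : ∀ n : ℕ, K ^ n ≤ 2 ^ (n * c0) := fun n => by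
    rw [Nat.mul_comm, pow_mul]
    exact pow_le_pow_left₀ hK0 hKc n
  have pc' : c ^ 2 ≤ 2 ^ (2 * c1) := by
    rw [Nat.mul_comm, pow_mul]
    exact pow_le_pow_left₀ hc0 hcc 2
  have inv : ∀ n : ℕ, 1 / q2 n = 2 ^ n := fun n => by
    rw [div_eq_iff (q2_pos n).ne']
    exact (q2_mul_pow n).symm
  -- a term
  have term : ∀ (a : ℝ) (e n r : ℕ), 0 ≤ a → a ≤ 2 ^ e → r + e ≤ n → a * q2 n ≤ q2 r := by
    intro a e n r _ ha hn
    calc a * q2 n ≤ 2 ^ e * q2 (r + e) := mul_le_mul ha (q2_le hn) (q2_pos _).le (by positivity)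
      _ = q2 r * (2 ^ e * q2 e) := by rw [q2_add]; ring
      _ = q2 r := by rw [q2_mul_pow, mul_one]
  set r := rq + m + 3 with hrd
  have t1 : 16 * K ^ 5 * 2 ^ (2 * m) * q2 (rk + M8) ≤ q2 r := by
    refine term _ (4 + 5 * c0 + 2 * m) _ _ (by positivity) ?_ (by omega)
    rw [pow_add, pow_add]
    refine mul_le_mul_of_nonneg_right ?_ (by positivity)
    exact mul_le_mul (by norm_num) (pc 5) (by positivity) (by positivity)
  have t2 : 4 * K ^ 2 * 2 ^ (2 * m) * q2 (rk + 2 * g) ≤ q2 r := by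
    refine term _ (2 + 2 * c0 + 2 * m) _ _ (by positivity) ?_ (by omega)
    rw [pow_add, pow_add]
    refine mul_le_mul_of_nonneg_right ?_ (by positivity)
    exact mul_le_mul (by norm_num) (pc 2) (by positivity) (by positivity)
  have t3 : 2 * K ^ 5 * 2 ^ m * q2 rI ≤ q2 r := by
    refine term _ (1 + 5 * c0 + m) _ _ (by positivity) ?_ (by omega)
    rw [pow_add, pow_add]
    refine mul_le_mul_of_nonneg_right ?_ (by positivity)
    exact mul_le_mul (by norm_num) (pc 5) (by positivity) (by positivity)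
  have t4 : 32 * K ^ 8 * 2 ^ m * q2 (rk + M8) ≤ q2 r := by
    refine term _ (5 + 8 * c0 + m) _ _ (by positivity) ?_ (by omega)
    rw [pow_add, pow_add]
    refine mul_le_mul_of_nonneg_right ?_ (by positivity)
    exact mul_le_mul (by norm_num) (pc 8) (by positivity) (by positivity)
  have t5 : 2172 * K ^ 10 * c ^ 2 * q2 (rk + B1) ≤ q2 r := by
    refine term _ (12 + 10 * c0 + 2 * c1) _ _ (by positivity) ?_ (by omega)
    rw [pow_add, pow_add]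
    exact mul_le_mul (mul_le_mul (by norm_num) (pc 10) (by positivity) (by positivity)) pc' (by positivity)
      (by positivity)
  have t6 : 4 * K ^ 7 * q2 (rk + M8) ≤ q2 r := by
    refine term _ (2 + 7 * c0) _ _ (by positivity) ?_ (by omega)
    rw [pow_add]
    exact mul_le_mul (by norm_num) (pc 7) (by positivity) (by positivity)
  have hr8 : 8 * q2 r = q2 (rq + m) := by
    have h3 : q2 3 = 1 / 8 := by unfold q2; norm_num
    rw [hrd, q2_add (rq + m) 3, h3]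
    ring
  have i1 := inv m
  have e1 : 4 * K ^ 3 / q2 m = 4 * K ^ 3 * 2 ^ m := by rw [← i1]; ring
  have e2 : q2 (2 * g) / q2 m = q2 (2 * g) * 2 ^ m := by rw [← i1]; ring
  have e3 : 2 / q2 m = 2 * 2 ^ m := by rw [← i1]; ring
  have e4 : q2 rk * (2 : ℝ) ^ rk = 1 := by rw [mul_comm]; exact q2_mul_pow _
  rw [hB, hη, hr, e1, e2, e3]
  unfold eE
  have hp : (2 : ℝ) ^ (2 * m) = 2 ^ m * 2 ^ m := by rw [two_mul, pow_add]
  have key : K ^ 2 * (q2 rk * (2 * 2 ^ m * (2 * (4 * K ^ 3 * 2 ^ m) * q2 M8 + 2 * (q2 (2 * g) * 2 ^ m) +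
      K ^ 3 * (2 ^ rk * q2 rI) + 16 * K ^ 6 * q2 M8)) +
      K * (362 * K ^ 6 * (6 * c ^ 2 * K) * q2 (rk + B1) + 4 * K ^ 4 * q2 (rk + M8))) =
      16 * K ^ 5 * 2 ^ (2 * m) * q2 (rk + M8) + 4 * K ^ 2 * 2 ^ (2 * m) * q2 (rk + 2 * g) +
      (q2 rk * 2 ^ rk) * (2 * K ^ 5 * 2 ^ m * q2 rI) + 32 * K ^ 8 * 2 ^ m * q2 (rk + M8) +
      2172 * K ^ 10 * c ^ 2 * q2 (rk + B1) + 4 * K ^ 7 * q2 (rk + M8) := by
    rw [hp, q2_add rk M8, q2_add rk (2 * g)]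
    ring
  rw [key, e4, one_mul]
  have := q2_pos r
  linarith

/-- **weak collinearity at a step of type (ii)** -/
theorem cW_le (h : R.Ok p K c' g' gU) (hK : 1 ≤ K) {c : ℝ} (hc : 1 ≤ c)
    (hlb : ∀ ω, 0 < R.Q.w ω → LbOk c R.L R.h (R.W ω) (R.ry ω) (R.t ω) ∧ (R.W ω).u2 = 1 ∧
      (R.W ω).u1 = (1 / 2 : ℝ) ^ R.q) (hc0 : 0 < c') (hc1 : c' ≤ 1) {ε : ℝ} {b0 q k f js i g c0 c1 Mm : ℕ}
    (G : R.Good p ε b0 q) (hkq : k ≤ q) (hq : q < R.n) (hfk : f ≤ k) (hrk : R.C.rk f = R.C.rk k) (hkj : k ≤ js)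
    (hji : js ≤ i) (hi : i ≤ R.n) (ha : R.C.a k = R.C.a q) (r8 : R.C.rk k + 8 * R.C.μ ≤ R.C.rk js)
    (a8 : R.C.a js + 8 * R.C.μ ≤ R.C.a i) (hrf : R.C.rk k + 8 * R.C.μ ≤ R.C.rf q)
    (hII : R.C.rk q + p.s * R.m < R.rI q) (hM : R.C.rk q ≤ R.C.rk k + Mm) (Lf : Lv R p K c f) (Lk : Lv R p K c k)
    (hKc : K ≤ 2 ^ c0) (hcc : c ≤ 2 ^ c1) (n1 : Mm + 3 * R.m + 8 * c0 + 8 ≤ 8 * R.C.μ)
    (n2 : Mm + 3 * R.m + 2 * c0 + 5 ≤ 2 * g) (n3 : 2 * R.m + 5 * c0 + 4 ≤ p.s * R.m)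
    (n4 : Mm + R.m + 10 * c0 + 2 * c1 + 15 ≤ R.m * R.b1) :
    MIC.cW R.Q R.C (R.m * R.b1) f k i (2 * g) ≤
      (36 * ε + 2 * prE R.Q (R.C.Bad (cB K c) k (R.m * R.b1)) + 6 * q2 (2 * g)) / c' := by
  classical
  set P := R.Q with hP
  set D : Ω → τ × Pth.Dg := R.C.cell k (R.m * R.b1) with hD
  set Y : Ω → (Ry × υ) × (τ × Pth.Dg) := fun ω => (R.Z q ω, R.C.cell q b0 ω) with hY
  set S : Ω → ℝ := fun ω => 2 ^ R.C.a k * R.C.s i ω with hS
  set T : Ω → ℝ := fun ω => 2 ^ R.C.rk k * TT R.C f i ω with hT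
  set ν := prE P (R.C.Bad (cB K c) k (R.m * R.b1)) with hν
  have hK0 : 0 < K := by linarith
  have hfi : f ≤ i := hfk.trans (hkj.trans hji)
  have hqn : q ≤ R.n + p.J := by omega
  have hε0 : 0 ≤ ε := (colp_nonneg P _ _).trans G.time
  have hν0 : 0 ≤ ν := prE_nonneg P _
  have hδ : 2 * K ^ 2 * q2 (R.C.rk k + 8 * R.C.μ) ≤ 1 := by
    have e1 : K ^ 2 ≤ 2 ^ (2 * c0) := by
      rw [Nat.mul_comm, pow_mul]
      exact pow_le_pow_left₀ (by linarith) hKc 2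
    calc 2 * K ^ 2 * q2 (R.C.rk k + 8 * R.C.μ) ≤ 2 * 2 ^ (2 * c0) * q2 (2 * c0 + 1) :=
          mul_le_mul (by linarith) (q2_le (by omega)) (q2_pos _).le (by positivity)
      _ = 2 ^ (2 * c0 + 1) * q2 (2 * c0 + 1) := by rw [pow_succ]; ring
      _ = 1 := q2_mul_pow _
  have hTb : ∀ ω, 0 < P.w ω → |T ω| ≤ 2 * K ^ 3 := by
    intro ω hω
    have h1 := TT_bd (h.ok ω hω) hfi
    rw [hrk] at h1
    simp only [hT]
    rw [abs_mul, abs_of_pos (by positivity)]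
    calc (2 : ℝ) ^ R.C.rk k * |TT R.C f i ω| ≤ 2 ^ R.C.rk k * (2 * K ^ 3 * q2 (R.C.rk k)) :=
          mul_le_mul_of_nonneg_left h1 (by positivity)
      _ = 2 * K ^ 3 * (2 ^ R.C.rk k * q2 (R.C.rk k)) := by ring
      _ = 2 * K ^ 3 := by rw [q2_mul_pow, mul_one]
  have hke : R.C.a k + R.m ≤ R.C.a i := by
    have := R.C.ha hkj
    omega
  have hnear : ∀ ω ω', |S ω' - S ω| < q2 R.m →
      |fl1 (R.C.a k + R.m) (R.C.t ω) - fl1 (R.C.a k + R.m) (R.C.t ω')| ≤ ((4 : ℕ) : ℤ) := by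
    intro ω ω' hn
    refine near_time hke ?_
    rw [mul_sub]
    exact hn
  have hcol : ∀ {δ : Type} (X : Ω → δ), colp P (fun ω => fl1 (R.C.a k + R.m) (R.C.t ω)) X ≤ ε →
      P.ex (fun ω => (P.cond X (X ω)).ex fun a => Law.ind (|S a - S ω| < q2 R.m)) ≤ 9 * ε := by
    intro δ X hX
    refine le_trans (P.ex_mono fun ω _ => Law.ex_mono _ fun a _ => ind_mono fun hn => hnear ω a hn) ?_
    refine (pair_near_le P (fun ω => fl1 (R.C.a k + R.m) (R.C.t ω)) X 4).trans ?_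
    push_cast
    linarith
  obtain ⟨ω₀, h₀⟩ : ∃ ω, 0 < P.w ω := by
    by_contra hcon
    push Not at hcon
    have : ∑ ω, P.w ω ≤ 0 := Finset.sum_nonpos fun ω _ => hcon ω
    rw [P.sum_one] at this
    linarith
  -- the cell as a function of `W'`
  let fn : Set Ω → τ × Pth.Dg := fun z =>
    if hz : ∃ ω, 0 < P.w ω ∧ R.W' ω = z ∧ ¬ R.C.Bad (cB K c) k (R.m * R.b1) ω then D hz.choose else D ω₀
  have hfn : prE P (fun ω => D ω ≠ fn (R.W' ω)) ≤ ν := by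
    refine prE_mono' P fun ω hω hne => ?_
    by_contra hB
    refine hne ?_
    have hz : ∃ ω', 0 < P.w ω' ∧ R.W' ω' = R.W' ω ∧ ¬ R.C.Bad (cB K c) k (R.m * R.b1) ω' := ⟨ω, hω, rfl, hB⟩
    obtain ⟨z1, z2, z3⟩ := hz.choose_spec
    simp only [fn]
    rw [dif_pos hz]
    exact (cell_W' h hK hc hlb Lk z1 hω z2 z3).symm
  have hu : ∀ ω, 0 < P.w ω → ∀ x : ℝ, prE P (fun ω' => R.W' ω' = R.W' ω ∧
      |R.al q ω' - x| ≤ 2 ^ R.C.a q * q2 (R.C.rk q + R.m)) ≤ (1 - c') * P.pr R.W' (R.W' ω) := by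
    intro ω hω x
    refine le_trans (prE_mono' P fun ω' _ h' => ⟨h'.1, ?_⟩) (h.unk q hq G.isA hII ω hω x).le
    have hq2 := q2_pos (R.C.a q)
    calc |R.al q ω' - x| * q2 (R.C.a q) ≤ 2 ^ R.C.a q * q2 (R.C.rk q + R.m) * q2 (R.C.a q) :=
          mul_le_mul_of_nonneg_right h'.2 hq2.le
      _ = 2 ^ R.C.a q * q2 (R.C.a q) * q2 (R.C.rk q + R.m) := by ring
      _ = _ := by rw [q2_mul_pow, one_mul]
  have hgeo : ∀ L : ℝ × ℝ, |L.2| ≤ 4 * K ^ 3 / q2 R.m → ∀ z : Set Ω, ∃ x : ℝ, ∀ ω ω', 0 < P.w ω → 0 < P.w ω' →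
      R.W' ω = z → Y ω = Y ω' → Nr S T (q2 (2 * g) / q2 R.m) L ω → Nr S T (q2 (2 * g) / q2 R.m) L ω' →
      q2 R.m ≤ |S ω' - S ω| → |R.al q ω - x| ≤ 2 ^ R.C.a q * q2 (R.C.rk q + R.m) := by
    intro L hL z
    by_cases hz : ∃ ω, 0 < P.w ω ∧ R.W' ω = z
    · obtain ⟨ω1, w1, w2⟩ := hz
      refine ⟨((R.C.F f ω1).al - 2 ^ R.C.a k * q2 (R.C.rk k) * L.2) / rho R.C f i ω1, ?_⟩
      intro ω ω' hω hω' hz hYY k1 k2 hsep
      have hpair := al_pair h hkq hqn hfk hrk hkj hji hi r8 a8 hδ hrf hω hω' hYY hL k1 k2 (q2_pos R.m)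
        (by
          have e : q2 (8 * R.C.μ) ≤ q2 (R.m + 2) := q2_le (by omega)
          have e2 : q2 2 = 1 / 4 := by unfold q2; norm_num
          rw [q2_add, e2] at e
          linarith) hsep
      have hW : R.W' ω1 = R.W' ω := w2.trans hz.symm
      have hTf := h.fnT f (by omega) ω1 ω w1 hω hW
      have haF : (R.C.F f ω1).al = (R.C.F f ω).al := by
        show R.C.al f (R.C.T f ω1) = R.C.al f (R.C.T f ω)
        rw [hTf]
      have hrho := rho_W' h hK hc hlb Lf hfi hi w1 hω hW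
      have rp := rho_pos (h.ok ω1 w1) f i
      have rl := le_rho (h.ok ω1 w1) f i
      have hal := h.alB q hqn ω hω
      rw [haF]
      set ρ1 := rho R.C f i ω1 with hρ1
      set ρ := rho R.C f i ω with hρ
      set N := (R.C.F f ω).al - 2 ^ R.C.a k * q2 (R.C.rk k) * L.2 with hN
      have hqa := q2_pos (R.C.a q)
      have e1 : ρ1 * (R.al q ω - N / ρ1) = (ρ * R.al q ω - N) - (ρ - ρ1) * R.al q ω := by
        field_simp
        ring
      have e2 : ρ1 * (|R.al q ω - N / ρ1| * q2 (R.C.a q)) ≤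
          q2 (R.C.rk k) * (2 / q2 R.m * eE K (4 * K ^ 3 / q2 R.m) (q2 (2 * g) / q2 R.m) (q2 (8 * R.C.μ))
            (2 ^ R.C.rk k * q2 (R.rI q))) +
          K * (362 * K ^ 6 * (6 * c ^ 2 * K) * q2 (R.C.rk k + R.m * R.b1) + 4 * K ^ 4 * q2 (R.C.rk k + 8 * R.C.μ)) := by
        have g1 : ρ1 * (|R.al q ω - N / ρ1| * q2 (R.C.a q)) = |ρ1 * (R.al q ω - N / ρ1)| * q2 (R.C.a q) := by
          rw [abs_mul, abs_of_pos rp]; ring
        rw [g1, e1]
        have g2 := abs_sub (ρ * R.al q ω - N) ((ρ - ρ1) * R.al q ω)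
        have g3 : |(ρ - ρ1) * R.al q ω| * q2 (R.C.a q) ≤
            K * (362 * K ^ 6 * (6 * c ^ 2 * K) * q2 (R.C.rk k + R.m * R.b1) +
              4 * K ^ 4 * q2 (R.C.rk k + 8 * R.C.μ)) := by
          rw [abs_mul]
          have g4 : 362 * K ^ 6 * (6 * c ^ 2 * K) * q2 (R.C.rk f + R.m * R.b1) + 4 * K ^ 4 * q2 (R.C.rk i) ≤
              362 * K ^ 6 * (6 * c ^ 2 * K) * q2 (R.C.rk k + R.m * R.b1) + 4 * K ^ 4 * q2 (R.C.rk k + 8 * R.C.μ) := by
            rw [hrk]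
            have : q2 (R.C.rk i) ≤ q2 (R.C.rk k + 8 * R.C.μ) := q2_le (r8.trans (R.C.hk hji))
            have := mul_le_mul_of_nonneg_left this (by positivity : 0 ≤ 4 * K ^ 4)
            linarith
          calc |ρ - ρ1| * |R.al q ω| * q2 (R.C.a q) = |ρ - ρ1| * (|R.al q ω| * q2 (R.C.a q)) := by ring
            _ ≤ (362 * K ^ 6 * (6 * c ^ 2 * K) * q2 (R.C.rk k + R.m * R.b1) +
                4 * K ^ 4 * q2 (R.C.rk k + 8 * R.C.μ)) * K :=
                mul_le_mul (hrho.trans g4) hal (by positivity) ((abs_nonneg _).trans (hrho.trans g4))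
            _ = _ := by ring
        rw [← ha] at hqa g3 ⊢
        calc |ρ * R.al q ω - N - (ρ - ρ1) * R.al q ω| * q2 (R.C.a k) ≤
              (|ρ * R.al q ω - N| + |(ρ - ρ1) * R.al q ω|) * q2 (R.C.a k) := mul_le_mul_of_nonneg_right g2 hqa.le
          _ = |ρ * R.al q ω - N| * q2 (R.C.a k) + |(ρ - ρ1) * R.al q ω| * q2 (R.C.a k) := by ring
          _ ≤ _ := add_le_add hpair g3
      have hnum := num_al hK hc hKc hcc hM n1 n2 (rI := R.rI q) (by omega) n4 rfl rfl rfl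
      have e3 : |R.al q ω - N / ρ1| * q2 (R.C.a q) ≤ q2 (R.C.rk q + R.m) := by
        have hpos : 0 ≤ |R.al q ω - N / ρ1| * q2 (R.C.a q) := mul_nonneg (abs_nonneg _) hqa.le
        calc |R.al q ω - N / ρ1| * q2 (R.C.a q) ≤ K ^ 2 * ρ1 * (|R.al q ω - N / ρ1| * q2 (R.C.a q)) :=
              le_mul_of_one_le_left hpos rl
          _ = K ^ 2 * (ρ1 * (|R.al q ω - N / ρ1| * q2 (R.C.a q))) := by ring
          _ ≤ _ := (mul_le_mul_of_nonneg_left e2 (by positivity)).trans hnum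
      calc |R.al q ω - N / ρ1| = 2 ^ R.C.a q * q2 (R.C.a q) * |R.al q ω - N / ρ1| := by rw [q2_mul_pow, one_mul]
        _ = 2 ^ R.C.a q * (|R.al q ω - N / ρ1| * q2 (R.C.a q)) := by ring
        _ ≤ _ := mul_le_mul_of_nonneg_left e3 (by positivity)
    · exact ⟨0, fun ω _ hω _ hz' => absurd ⟨ω, hω, hz'⟩ hz⟩
  have hmain := cw_abs P D Y R.W' fn S T (R.al q) (θ := q2 (2 * g)) (B2 := 4 * K ^ 3) (r := q2 R.m) (r1 := q2 R.m)
    (e0 := 9 * ε) (e1 := 9 * ε) hc0 (q2_pos _) (q2_pos _)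
    (fun x y hx hy e => by
      obtain ⟨f1, f2, f3⟩ := side h b0 hkq hqn x y hx hy e
      exact H683.cell_side f1 f2 f3)
    (fun x y hx hy => by
      have h1 := hTb x hx
      have h2 := hTb y hy
      have h3 := abs_sub (T y) (T x)
      linarith)
    (hcol D (cT_cell h G hkq hqn ha le_rfl)) (hcol Y (time_le h G ha le_rfl)) hfn hu hgeo
  have eS : ∀ ω a, MIC.uS R.C k i ω a = S a - S ω := fun ω a => mul_sub _ _ _
  have eT : ∀ ω a, MIC.uT R.C f k i ω a = T a - T ω := fun ω a => mul_sub _ _ _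
  unfold MIC.cW
  simp only [eS, eT]
  refine hmain.trans ?_
  rw [le_div_iff₀ hc0]
  have hdiv : (ν + 6 * q2 (2 * g) + 2 * (9 * ε)) / c' * c' = ν + 6 * q2 (2 * g) + 2 * (9 * ε) :=
    div_mul_cancel₀ _ hc0.ne'
  have h1 : (2 * (9 * ε) + ν) * c' ≤ (2 * (9 * ε) + ν) * 1 := mul_le_mul_of_nonneg_left hc1 (by linarith)
  calc (2 * (9 * ε) + (ν + (ν + 6 * q2 (2 * g) + 2 * (9 * ε)) / c')) * c' =
        (2 * (9 * ε) + ν) * c' + (ν + 6 * q2 (2 * g) + 2 * (9 * ε)) / c' * c' := by ring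
    _ ≤ (2 * (9 * ε) + ν) * 1 + (ν + 6 * q2 (2 * g) + 2 * (9 * ε)) := by rw [hdiv]; linarith
    _ = _ := by ring

open Vale.Agent.P106.U.H931 (Nq) in
open Vale.Agent.P106.U.H833 (aN kN fN RN lev_a lev_k lev_f) in
/-- the kappa regime at `k`, with a margin, type (ii) -/
theorem kap2 {ε : ℝ} {b0 x M k q : ℕ} (h : Nq R p ε b0 x M k q) (hP : R.Path p)
    (hr : kN R k + x + M + 1 ≤ fN R k) :
    R.C.rk k + R.m * x ≤ R.C.rf q ∧ R.C.rk q ≤ R.C.rk k + M * R.m := by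
  have hqn := h.qn
  have hkq := h.kq
  have k0 := lev_k hP (i := k) (by omega)
  have k1 := lev_k hP (i := q) (by omega)
  have f0 := lev_f hP (i := k) (by omega)
  have f1 := lev_f hP (i := q) (by omega)
  have hm := hP.m1
  have hff : fN R k ≤ fN R q := by
    have := R.C.hf hkq
    exact Nat.le_of_mul_le_mul_left (by omega : R.m * fN R k ≤ R.m * fN R q) hm
  have hR := h.RN
  unfold H833.RN at hR
  have h1 : kN R q ≤ kN R k + M := by omega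
  have h2 : kN R k + x + M + 1 ≤ fN R q := by omega
  have h3 : R.m * kN R q ≤ R.m * kN R k + R.m * M := by
    rw [← Nat.mul_add]
    exact Nat.mul_le_mul_left _ h1
  have h4 : R.m * kN R k + R.m * x + R.m * M + R.m ≤ R.m * fN R q := by
    have := Nat.mul_le_mul_left R.m h2
    rw [Nat.mul_add, Nat.mul_add, Nat.mul_add, Nat.mul_one] at this
    exact this
  have h7 : M * R.m = R.m * M := Nat.mul_comm _ _
  refine ⟨by omega, by omega⟩

open Vale.Agent.P106.U.H931 (Nq) in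
open Vale.Agent.P106.U.H833 (kN fN) in
/-- **weak collinearity**, path along `f`, kappa regime, type (ii); frame `fr ≤ k` on the same level of the line -/
theorem cW_m (h : R.Ok p K c' g' gU) (hK : 1 ≤ K) {c : ℝ} (hc : 1 ≤ c)
    (hlb : ∀ ω, 0 < R.Q.w ω → LbOk c R.L R.h (R.W ω) (R.ry ω) (R.t ω) ∧ (R.W ω).u2 = 1 ∧
      (R.W ω).u1 = (1 / 2 : ℝ) ^ R.q) (hc0 : 0 < c') (hc1 : c' ≤ 1) {f : ℕ → ℕ} (hf : Monotone f) {ε : ℝ}
    {b0 x M fr k js i q g c0 c1 : ℕ} (hfr : fr ≤ k) (hrk : R.C.rk (f fr) = R.C.rk (f k))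
    (n : Nq R p ε b0 x M (f k) q) (hr : kN R (f k) + x + M + 1 ≤ fN R (f k))
    (hII : R.C.rk q + p.s * R.m < R.rI q) (hkj : k ≤ js) (hji : js ≤ i) (hi : f i ≤ R.n)
    (r8 : R.C.rk (f k) + 8 * R.C.μ ≤ R.C.rk (f js)) (a8 : R.C.a (f js) + 8 * R.C.μ ≤ R.C.a (f i))
    (hx : 8 * R.C.μ ≤ R.m * x) (Lf : Lv R p K c (f fr)) (Lk : Lv R p K c (f k))
    (hKc : K ≤ 2 ^ c0) (hcc : c ≤ 2 ^ c1) (n1 : M * R.m + 3 * R.m + 8 * c0 + 8 ≤ 8 * R.C.μ)
    (n2 : M * R.m + 3 * R.m + 2 * c0 + 5 ≤ 2 * g) (n3 : 2 * R.m + 5 * c0 + 4 ≤ p.s * R.m)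
    (n4 : M * R.m + R.m + 10 * c0 + 2 * c1 + 15 ≤ R.m * R.b1) :
    MIC.cW R.Q (R.C.re f hf) (R.m * R.b1) fr k i (2 * g) ≤
      (36 * ε + 2 * prE R.Q (R.C.Bad (cB K c) (f k) (R.m * R.b1)) + 6 * q2 (2 * g)) / c' := by
  obtain ⟨h1, h2⟩ := kap2 n h.pth hr
  exact cW_le h hK hc hlb hc0 hc1 n.good n.kq n.qn (hf hfr) hrk (hf hkj) (hf hji) hi n.a r8 a8 (by omega) hII h2 Lf Lk
    hKc hcc n1 n2 n3 n4

end geo

end Vale.Agent.P106.U.H457
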