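import Vale.Agent.P106.U.H457.UnkD

/-!
# P106 / U / H457 : collinear cells are rare, abstract form (helper457)

`D` = cell, `Y` = finer letter (ray side), `G` = letter of the other side, `D = f G` outside probability `ν`; `(S, T)` = point of
the plane (time, kappa).  If the copies of `S` given `D` and given `Y` do not collide, if given `G` no value of `al` has mass
`≥ 1 - c`, and if two points with the same `Y` which are both near a line and not near each other determine `al` given `G`, then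
for most `ω` two copies given `D` are not collinear with `ω` with probability `≥ θ`.
-/

set_option autoImplicit false

namespace Vale.Agent.P106.U.H457

open Finset Vale.Agent.P127 Vale.Agent.P127.Stk Vale.Agent.P127.U.Pin Vale.Agent.P127.U.Mic

variable {Ω : Type} [Fintype Ω] {γ δ ψ : Type*}

theorem prE_cond (P : Law Ω) (Z : Ω → δ) (B : Ω → Prop) {z : δ} (hz : 0 < P.pr Z z) :
    prE P (fun ω => Z ω = z ∧ B ω) = P.pr Z z * (P.cond Z z).ex (fun ω => Law.ind (B ω)) := by
  rw [cond_ex_ind P Z B hz, mul_div_cancel₀ _ hz.ne', prE_eq_ex]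
  refine P.ex_congr fun ω _ => ?_
  by_cases h : Z ω = z ∧ B ω
  · rw [Law.ind_of h, Law.ind_of ⟨h.2, h.1⟩]
  · rw [Law.ind_not h, Law.ind_not fun h' => h ⟨h'.2, h'.1⟩]

theorem cond_ex_le (P : Law Ω) (Z : Ω → δ) {ω : Ω} (hω : 0 < P.w ω) {F F' : Ω → ℝ}
    (h : ∀ a, 0 < P.w a → Z a = Z ω → F a ≤ F' a) :
    (P.cond Z (Z ω)).ex F ≤ (P.cond Z (Z ω)).ex F' := by
  refine Law.ex_mono _ fun a ha => ?_
  have := cond_supp P Z (P.pr_pos Z hω) ha
  exact h a this.2 this.1

/-- Markov -/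
theorem mkv (P : Law Ω) {F : Ω → ℝ} (h0 : ∀ ω, 0 < P.w ω → 0 ≤ F ω) {e : ℝ} (h : P.ex F ≤ e) {E : Ω → Prop}
    (hE : ∀ ω, 0 < P.w ω → E ω → 1 / 2 ≤ F ω) : prE P E ≤ 2 * e := by
  have h1 : prE P E ≤ P.ex (fun ω => 2 * F ω) := by
    rw [prE_eq_ex]
    refine P.ex_mono fun ω hω => ?_
    by_cases hw : E ω
    · rw [Law.ind_of hw]
      have := hE ω hω hw
      linarith
    · rw [Law.ind_not hw]
      have := h0 ω hω
      linarith
  rw [P.ex_const_mul] at h1
  linarith

theorem prE_false (P : Law Ω) : prE P (fun _ : Ω => False) = 0 := by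
  rw [prE_eq_ex]
  have : P.ex (fun _ => Law.ind False) = P.ex (fun _ => 0) := P.ex_congr fun ω _ => Law.ind_not (p := False) id
  rw [this, P.ex_const]

/-- near a line -/
def Nr (S T : Ω → ℝ) (η : ℝ) (L : ℝ × ℝ) (ω : Ω) : Prop := |T ω - (L.1 + L.2 * S ω)| ≤ η

/-- the value `d` of the cell is collinear -/
def Col (P : Law Ω) (D : Ω → δ) (S T : Ω → ℝ) (η θ Bm : ℝ) (d : δ) (L : ℝ × ℝ) : Prop :=
  |L.2| ≤ Bm ∧ prE P (fun ω => D ω = d ∧ ¬ Nr S T η L ω) ≤ 2 * θ * P.pr D d

/-- **step A** : if the good pairs are rare and the time is spread then the cell is collinear -/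
theorem col_of (P : Law Ω) (D : Ω → δ) (S T : Ω → ℝ) {θ r B2 : ℝ} (hr : 0 < r) (hθ : 0 < θ)
    (hT : ∀ ω ω', 0 < P.w ω → 0 < P.w ω' → |T ω' - T ω| ≤ B2) {ω : Ω} (hω : 0 < P.w ω)
    (hbad : (P.cond D (D ω)).ex (fun a => (P.cond D (D ω)).ex fun a' =>
      Law.ind (θ ≤ |(S a - S ω) * (T a' - T ω) - (S a' - S ω) * (T a - T ω)|)) < θ)
    (hsp : (P.cond D (D ω)).ex (fun a => Law.ind (|S a - S ω| < r)) ≤ 1 / 2) :
    ∃ L : ℝ × ℝ, Col P D S T (θ / r) θ (B2 / r) (D ω) L := by
  classical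
  set Q := P.cond D (D ω) with hQ
  have hz := P.pr_pos D hω
  have hQs : ∀ a, 0 < Q.w a → D a = D ω ∧ 0 < P.w a := fun a ha => cond_supp P D hz ha
  let inn : Ω → ℝ := fun a => Q.ex fun a' =>
    Law.ind (θ ≤ |(S a - S ω) * (T a' - T ω) - (S a' - S ω) * (T a - T ω)|)
  have hinn0 : ∀ a, 0 ≤ inn a := fun a => Law.ex_nonneg _ fun _ _ => ind_nonneg _
  -- a far copy with few good partners
  obtain ⟨a, ha, hfar, hin⟩ : ∃ a, 0 < Q.w a ∧ r ≤ |S a - S ω| ∧ inn a < 2 * θ := by
    by_contra hcon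
    push Not at hcon
    have h1 : Q.ex (fun a => 2 * θ * (1 - Law.ind (|S a - S ω| < r))) ≤ Q.ex inn := by
      refine Law.ex_mono _ fun a ha => ?_
      by_cases hn : |S a - S ω| < r
      · rw [Law.ind_of hn]
        have := hinn0 a
        linarith
      · rw [Law.ind_not hn]
        have := hcon a ha (not_lt.1 hn)
        linarith
    rw [Law.ex_const_mul, Law.ex_sub, Law.ex_const] at h1
    have h2 : Q.ex inn < θ := hbad
    nlinarith
  have h0 : 0 < |S a - S ω| := hr.trans_le hfar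
  have h1 : S a - S ω ≠ 0 := abs_pos.1 h0
  set B := (T a - T ω) / (S a - S ω) with hB
  refine ⟨(T ω - B * S ω, B), ?_, ?_⟩
  · show |B| ≤ B2 / r
    rw [hB, abs_div]
    have := hT ω a hω (hQs a ha).2
    exact div_le_div₀ ((abs_nonneg _).trans this) this hr hfar
  · rw [prE_cond P D _ hz, mul_comm (2 * θ)]
    refine mul_le_mul_of_nonneg_left ?_ hz.le
    refine le_trans (Law.ex_mono _ fun a' _ => ind_mono fun hn => ?_) hin.le
    unfold Nr at hn
    push Not at hn
    by_contra hcon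
    push Not at hcon
    have e : (S a - S ω) * (T a' - T ω) - (S a' - S ω) * (T a - T ω) =
        (S a - S ω) * (T a' - ((T ω - B * S ω) + B * S a')) := by
      rw [hB]
      field_simp
      ring
    rw [e, abs_mul] at hcon
    have h3 : θ / r * |S a - S ω| < |T a' - ((T ω - B * S ω) + B * S a')| * |S a - S ω| :=
      mul_lt_mul_of_pos_right hn h0
    have h4 : θ ≤ θ / r * |S a - S ω| := by
      rw [div_mul_eq_mul_div, le_div_iff₀ hr]
      exact mul_le_mul_of_nonneg_left hfar hθ.le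
    have : |S a - S ω| * |T a' - ((T ω - B * S ω) + B * S a')| =
        |T a' - ((T ω - B * S ω) + B * S a')| * |S a - S ω| := mul_comm _ _
    linarith

/-- **collinear cells are rare** -/
theorem col_rare (P : Law Ω) (D : Ω → δ) (Y : Ω → ψ) (G : Ω → γ) (f : γ → δ) (S T : Ω → ℝ) (al : Ω → ℝ)
    {θ η Bm r1 w c ν e1 : ℝ} (hc : 0 < c) (hθ : 0 ≤ θ) (hDY : Fn P D Y)
    (hY : P.ex (fun ω => (P.cond Y (Y ω)).ex fun a => Law.ind (|S a - S ω| < r1)) ≤ e1)
    (hf : prE P (fun ω => D ω ≠ f (G ω)) ≤ ν)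
    (hu : ∀ ω, 0 < P.w ω → ∀ x : ℝ, prE P (fun ω' => G ω' = G ω ∧ |al ω' - x| ≤ w) ≤ (1 - c) * P.pr G (G ω))
    (hgeo : ∀ L : ℝ × ℝ, |L.2| ≤ Bm → ∀ g : γ, ∃ x : ℝ, ∀ ω ω', 0 < P.w ω → 0 < P.w ω' → G ω = g → Y ω = Y ω' →
      Nr S T η L ω → Nr S T η L ω' → r1 ≤ |S ω' - S ω| → |al ω - x| ≤ w) :
    prE P (fun ω => ∃ L, Col P D S T η θ Bm (D ω) L) ≤ ν + (ν + 6 * θ + 2 * e1) / c := by
  classical
  -- the line
  let ln : δ → ℝ × ℝ := fun d => if h : ∃ L, Col P D S T η θ Bm d L then h.choose else (0, 0)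
  have hln : ∀ d, (∃ L, Col P D S T η θ Bm d L) → Col P D S T η θ Bm d (ln d) := by
    intro d h
    simp only [ln]
    rw [dif_pos h]
    exact h.choose_spec
  let xg : γ → ℝ := fun g => if h : |(ln (f g)).2| ≤ Bm then (hgeo (ln (f g)) h g).choose else 0
  have hxg : ∀ ω ω', 0 < P.w ω → 0 < P.w ω' → (∃ L, Col P D S T η θ Bm (f (G ω)) L) → Y ω = Y ω' →
      Nr S T η (ln (f (G ω))) ω → Nr S T η (ln (f (G ω))) ω' → r1 ≤ |S ω' - S ω| → |al ω - xg (G ω)| ≤ w := by
    intro ω ω' hω hω' hcol hYY h1 h2 h3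
    have hb : |(ln (f (G ω))).2| ≤ Bm := (hln _ hcol).1
    simp only [xg]
    rw [dif_pos hb]
    exact (hgeo (ln (f (G ω))) hb (G ω)).choose_spec ω ω' hω hω' rfl hYY h1 h2 h3
  let CG : Ω → Prop := fun ω => ∃ L, Col P D S T η θ Bm (f (G ω)) L
  let CD : Ω → Prop := fun ω => ∃ L, Col P D S T η θ Bm (D ω) L
  let E1 : Ω → Prop := fun ω => CG ω ∧ ¬ |al ω - xg (G ω)| ≤ w
  -- C1
  have C1 : c * prE P CG ≤ prE P E1 := by
    rw [prE_sum P G CG, prE_sum P G E1, Finset.mul_sum]
    refine Finset.sum_le_sum fun g _ => ?_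
    by_cases hp : 0 < P.pr G g
    · by_cases hcg : ∃ L, Col P D S T η θ Bm (f g) L
      · obtain ⟨ω, hω, hωg⟩ : ∃ ω, 0 < P.w ω ∧ G ω = g := by
          by_contra hcon
          push Not at hcon
          have : P.pr G g = 0 := by
            unfold Law.pr
            refine Finset.sum_eq_zero fun ω hω => ?_
            have h3 : G ω = g := by simpa using hω
            rcases (P.nn ω).eq_or_lt with h4 | h4
            · exact h4.symm
            · exact absurd h3 (hcon ω h4)
          linarith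
        have h1 := hu ω hω (xg g)
        rw [hωg] at h1
        have h2 : P.pr G g ≤ prE P (fun ω' => G ω' = g ∧ |al ω' - xg g| ≤ w) + prE P (fun ω' => G ω' = g ∧ E1 ω') := by
          rw [Law.pr_eq_ex, ← prE_eq_ex]
          refine prE_add_le P fun ω' _ h => ?_
          by_cases h3 : |al ω' - xg g| ≤ w
          · exact Or.inl ⟨h, h3⟩
          · refine Or.inr ⟨h, ?_, ?_⟩
            · show ∃ L, Col P D S T η θ Bm (f (G ω')) L
              rw [h]
              exact hcg
            · rw [h]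
              exact h3
        have h3 : prE P (fun ω' => G ω' = g ∧ CG ω') ≤ P.pr G g := by
          rw [Law.pr_eq_ex, ← prE_eq_ex]
          exact prE_mono' P fun ω' _ h => h.1
        nlinarith
      · have h3 : prE P (fun ω' => G ω' = g ∧ CG ω') ≤ 0 := by
          rw [← prE_false P]
          refine prE_mono' P fun ω' _ h => hcg ?_
          have := h.2
          simp only [CG] at this
          rwa [h.1] at this
        have h4 := prE_nonneg P (fun ω' => G ω' = g ∧ E1 ω')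
        nlinarith
    · have h0 : P.pr G g = 0 := le_antisymm (not_lt.1 hp) (P.pr_nonneg _ _)
      have h3 : prE P (fun ω' => G ω' = g ∧ CG ω') ≤ 0 := by
        rw [← h0, Law.pr_eq_ex, ← prE_eq_ex]
        exact prE_mono' P fun ω' _ h => h.1
      have h4 := prE_nonneg P (fun ω' => G ω' = g ∧ E1 ω')
      nlinarith
  -- C2
  let A1 : Ω → Prop := fun ω => CD ω ∧ ¬ Nr S T η (ln (D ω)) ω
  have hA1 : prE P A1 ≤ 2 * θ := by
    rw [prE_sum P D A1]
    calc ∑ d ∈ img D, prE P (fun ω => D ω = d ∧ A1 ω) ≤ ∑ d ∈ img D, 2 * θ * P.pr D d := by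
          refine Finset.sum_le_sum fun d _ => ?_
          have hpd := P.pr_nonneg D d
          by_cases hcd : ∃ L, Col P D S T η θ Bm d L
          · refine le_trans (prE_mono' P fun ω _ h => ?_) (hln d hcd).2
            refine ⟨h.1, ?_⟩
            have := h.2.2
            rwa [h.1] at this
          · have : prE P (fun ω => D ω = d ∧ A1 ω) ≤ 0 := by
              rw [← prE_false P]
              refine prE_mono' P fun ω _ h => hcd ?_
              have := h.2.1
              simp only [CD] at this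
              rwa [h.1] at this
            refine this.trans (by positivity)
      _ = 2 * θ * ∑ d ∈ img D, P.pr D d := by rw [Finset.mul_sum]
      _ ≤ 2 * θ * 1 := by
          refine mul_le_mul_of_nonneg_left ?_ (by linarith)
          have h1 : prE P (fun _ => True) = ∑ d ∈ img D, prE P (fun ω => D ω = d ∧ True) := prE_sum P D _
          have h2 : ∑ d ∈ img D, P.pr D d = ∑ d ∈ img D, prE P (fun ω => D ω = d ∧ True) := by
            refine Finset.sum_congr rfl fun d _ => ?_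
            rw [Law.pr_eq_ex, ← prE_eq_ex]
            exact le_antisymm (prE_mono' P fun ω _ h => ⟨h, trivial⟩) (prE_mono' P fun ω _ h => h.1)
          rw [h2, ← h1]
          exact prE_le_one P _
      _ = 2 * θ := mul_one _
  let A2 : Ω → Prop := fun ω => 1 / 2 ≤ (P.cond Y (Y ω)).ex fun a => Law.ind (|S a - S ω| < r1)
  have hA2 : prE P A2 ≤ 2 * e1 :=
    mkv P (fun ω _ => Law.ex_nonneg _ fun _ _ => ind_nonneg _) hY fun ω _ h => h
  let A3 : Ω → Prop := fun ω => 1 / 2 ≤ (P.cond Y (Y ω)).ex fun a => Law.ind (A1 a)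
  have hA3 : prE P A3 ≤ 2 * (2 * θ) := by
    refine mkv P (fun ω _ => Law.ex_nonneg _ fun _ _ => ind_nonneg _) ?_ fun ω _ h => h
    rw [ex_cond_ind P Y A1, ← prE_eq_ex]
    exact hA1
  have C2 : prE P E1 ≤ ν + (2 * θ + (2 * e1 + 2 * (2 * θ))) := by
    have h1 : prE P E1 ≤ prE P (fun ω => D ω ≠ f (G ω)) + prE P (fun ω => A1 ω ∨ A2 ω ∨ A3 ω) := by
      refine prE_add_le P fun ω hω h => ?_
      by_cases hD : D ω = f (G ω)
      · right
        have hCD : CD ω := by
          have := h.1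
          simp only [CG] at this
          rwa [← hD] at this
        by_cases hn : Nr S T η (ln (D ω)) ω
        · -- isolated in the fibre
          have hiso : ∀ a, 0 < P.w a → Y a = Y ω → ¬ A1 a → |S a - S ω| < r1 := by
            intro a ha hYa hA
            have hDa : D a = D ω := hDY a ω ha hω hYa
            have hna : Nr S T η (ln (D a)) a := by
              by_contra hcon
              refine hA ⟨?_, hcon⟩
              show ∃ L, Col P D S T η θ Bm (D a) L
              rw [hDa]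
              exact hCD
            by_contra hcon
            refine h.2 ?_
            refine hxg ω a hω ha h.1 hYa.symm ?_ ?_ (not_lt.1 hcon)
            · rw [← hD]; exact hn
            · rw [← hD, ← hDa]; exact hna
          have hge : 1 ≤ (P.cond Y (Y ω)).ex (fun a => Law.ind (|S a - S ω| < r1)) +
              (P.cond Y (Y ω)).ex (fun a => Law.ind (A1 a)) := by
            rw [← Law.ex_add]
            refine le_trans (le_of_eq ((P.cond Y (Y ω)).ex_const 1).symm) ?_
            refine cond_ex_le P Y hω fun a ha hYa => ?_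
            by_cases hA : A1 a
            · rw [Law.ind_of hA]
              have := ind_nonneg (|S a - S ω| < r1)
              linarith
            · rw [Law.ind_of (hiso a ha hYa hA)]
              have := ind_nonneg (A1 a)
              linarith
          rcases le_or_gt (1 / 2) ((P.cond Y (Y ω)).ex (fun a => Law.ind (|S a - S ω| < r1))) with h5 | h5
          · exact Or.inr (Or.inl h5)
          · refine Or.inr (Or.inr ?_)
            show 1 / 2 ≤ _
            linarith
        · exact Or.inl ⟨hCD, hn⟩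
      · exact Or.inl hD
    have h2 : prE P (fun ω => A1 ω ∨ A2 ω ∨ A3 ω) ≤ prE P A1 + prE P (fun ω => A2 ω ∨ A3 ω) :=
      prE_add_le P fun ω _ h => h
    have h3 : prE P (fun ω => A2 ω ∨ A3 ω) ≤ prE P A2 + prE P A3 := prE_add_le P fun ω _ h => h
    linarith
  -- C3
  have C3 : prE P CD ≤ prE P (fun ω => D ω ≠ f (G ω)) + prE P CG := by
    refine prE_add_le P fun ω _ h => ?_
    by_cases hD : D ω = f (G ω)
    · right
      show ∃ L, Col P D S T η θ Bm (f (G ω)) L
      rw [← hD]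
      exact h
    · exact Or.inl hD
  have C4 : prE P CG ≤ (ν + 6 * θ + 2 * e1) / c := by
    rw [le_div_iff₀ hc]
    linarith
  have : prE P CD ≤ ν + (ν + 6 * θ + 2 * e1) / c := by linarith
  exact this

/-- **weak collinearity, abstract form** -/
theorem cw_abs (P : Law Ω) (D : Ω → δ) (Y : Ω → ψ) (G : Ω → γ) (f : γ → δ) (S T : Ω → ℝ) (al : Ω → ℝ)
    {θ B2 r r1 w c ν e0 e1 : ℝ} (hc : 0 < c) (hθ : 0 < θ) (hr : 0 < r) (hDY : Fn P D Y)
    (hT : ∀ ω ω', 0 < P.w ω → 0 < P.w ω' → |T ω' - T ω| ≤ B2)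
    (hD : P.ex (fun ω => (P.cond D (D ω)).ex fun a => Law.ind (|S a - S ω| < r)) ≤ e0)
    (hY : P.ex (fun ω => (P.cond Y (Y ω)).ex fun a => Law.ind (|S a - S ω| < r1)) ≤ e1)
    (hf : prE P (fun ω => D ω ≠ f (G ω)) ≤ ν)
    (hu : ∀ ω, 0 < P.w ω → ∀ x : ℝ, prE P (fun ω' => G ω' = G ω ∧ |al ω' - x| ≤ w) ≤ (1 - c) * P.pr G (G ω))
    (hgeo : ∀ L : ℝ × ℝ, |L.2| ≤ B2 / r → ∀ g : γ, ∃ x : ℝ, ∀ ω ω', 0 < P.w ω → 0 < P.w ω' → G ω = g → Y ω = Y ω' →
      Nr S T (θ / r) L ω → Nr S T (θ / r) L ω' → r1 ≤ |S ω' - S ω| → |al ω - x| ≤ w) :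
    P.ex (fun ω => Law.ind ((P.cond D (D ω)).ex (fun a => (P.cond D (D ω)).ex fun a' =>
      Law.ind (θ ≤ |(S a - S ω) * (T a' - T ω) - (S a' - S ω) * (T a - T ω)|)) < θ)) ≤
      2 * e0 + (ν + (ν + 6 * θ + 2 * e1) / c) := by
  have h1 := col_rare P D Y G f S T al (Bm := B2 / r) hc hθ.le hDY hY hf hu hgeo
  have h2 : prE P (fun ω => 1 / 2 ≤ (P.cond D (D ω)).ex fun a => Law.ind (|S a - S ω| < r)) ≤ 2 * e0 :=
    mkv P (fun ω _ => Law.ex_nonneg _ fun _ _ => ind_nonneg _) hD fun ω _ h => h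
  rw [← prE_eq_ex]
  refine (prE_add_le P (F := fun ω => 1 / 2 ≤ (P.cond D (D ω)).ex fun a => Law.ind (|S a - S ω| < r))
    (G := fun ω => ∃ L, Col P D S T (θ / r) θ (B2 / r) (D ω) L) fun ω hω h => ?_).trans (add_le_add h2 h1)
  rcases le_or_gt (1 / 2) ((P.cond D (D ω)).ex fun a => Law.ind (|S a - S ω| < r)) with h5 | h5
  · exact Or.inl h5
  · exact Or.inr (col_of P D S T hr hθ hT hω h h5.le)

end Vale.Agent.P106.U.H457
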