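import Vale.Agent.P106.U.H495.RK1
import Vale.Agent.P106.U.H466.HeiF
import Vale.Agent.P106.U.H958.JuH

/-!
# P106 / U / H457 : end of the chain (helper457)

* **`juP`** : input `JuP` of row [K] (helper495): over the interval `[w, w + 1 + KrK x]` of pure levels the nominal position of the
  level `w` has few values given the late time and the cell `mtr` of the level `w` (helper958's `hJ_V`).
-/

set_option autoImplicit false

namespace Vale.Agent.P106.U.H457

open Finset Vale.Agent.P127 Vale.Agent.P127.Stk Vale.Agent.P127.U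
open Vale.Agent.P127.U.CellD (q2)
open Vale.Agent.P106.U.S5 hiding Cst
open Vale.Agent.P106.U.MIC
open Vale.Agent.P106.U.H652 (Ev3 ev_nat ev_con)
open Vale.Agent.P106.U.H495.RK (PF LvF MtK AK ThK JuP ui KrK drK drK_rep)
open Vale.Agent.P106.U.H785.Mtr (YI hy_mt ofR_mt)
open Vale.Agent.P106.U.H466 (numM_mt lctx_run NumM)

/-- the universal constant -/
noncomputable def cJu (x : ℕ) : ℝ :=
  (18 * (cμ * xS x) * Real.log 2 + 9 * Real.log (64 * 10 ^ 15) + 16) / Real.log 2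

theorem cJu_nonneg (x : ℕ) : 0 ≤ cJu x := by
  have hl2 : 0 < Real.log 2 := Real.log_pos (by norm_num)
  have h2 : 0 ≤ Real.log (64 * 10 ^ 15) := Real.log_nonneg (by norm_num)
  unfold cJu
  positivity

section

variable {η : ℝ} {x : ℕ} {σ : S5.Cst} {ε : ℝ} {ρ : Thr} {g : Gv} {m B h : ℕ}

theorem ju_st (hρ : ρ.Ok) (m2 : 2 ≤ m) (KB : KS ρ ≤ B) (μB : μS x m ≤ B) (MB : MuS x + 3 ≤ B) (s : St η x σ ε ρ g m B h)
    {w : ℕ} (H : PF s w (w + 1 + KrK x)) :
    hc s.R.Q (AK s w (w + 1 + KrK x)) (fun ω => (ThK s (w + 1 + KrK x) ω, MtK s w ω)) ≤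
      18 * μS x m * Real.log 2 + 9 * Real.log (64 * ρ.K) + 16 := by
  have run := s.run
  have hP := run.ok.pth
  have hm : s.R.m = m := run.hm
  have hB0 : 1 ≤ B := by omega
  have hμm : s.R.C.μ = s.R.m * B := by
    rw [run.hμ, hm]
  have hμ2 : 2 * μS x m ≤ s.R.C.μ := by
    rw [hμm, hm]
    exact Nat.mul_le_mul m2 μB
  have hμ : μS x m ≤ s.R.C.μ := by omega
  have hr : 100 * (s.R.m * B) ≤ s.R.r0 := by
    rw [hm, run.hr0]
    exact run.rm
  have hb1 : 8 * B ≤ s.R.b1 := by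
    have h1 := run.cap.low
    omega
  set y := w + 1 + KrK x with hy
  have hwy : w ≤ y := H.wy
  have hw := H.lv w le_rfl hwy
  have hyy := H.lv y hwy le_rfl
  have ik : ui s w ≤ ui s y := by
    rcases hwy.eq_or_lt with e | e
    · rw [← e]
    · exact (H.up w y le_rfl e le_rfl).le
  have hn : ui s y < s.R.n := hyy.kn
  have hiw : ui s w ∈ YI s.R s.pn s.Vs := ⟨by omega, by rw [hw.lv]; exact hw.V⟩
  have hiy : ui s y ∈ YI s.R s.pn s.Vs := ⟨by omega, by rw [hyy.lv]; exact hyy.V⟩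
  have hd : y - w = MuS x + 3 := by
    rw [hy]
    unfold KrK
    omega
  have h8μ : 8 * μS x m = MuS x * m := by
    unfold μS MuS
    ring
  have hmB : (MuS x + 3) * m ≤ m * B := by
    rw [Nat.mul_comm m B]
    exact Nat.mul_le_mul_right _ MB
  have loS := s.f2.loS
  have loV := s.f2.loV
  rw [Nat.mul_add] at loS
  have hcμ : 1 ≤ μS x m := by
    unfold μS cμ xS
    have hc : 0 < cN := lt_of_lt_of_le (by norm_num) (le_max_left 800 cφ)
    have : 0 < 8000 * cN * (x + 12) * m := by positivity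
    omega
  have ha2 := hw.a2
  have N : NumM s.R (S3.mt s.R s.F (μS x m) s.o s.o') (ui s w) (ui s y) (s.R.m * s.R.b1) (s.R.m * s.R.b1 + 8 * μS x m) s.bV := by
    refine numM_mt (d := MuS x + 3) run.ok s.f2 hr hb1 μB hμ2 (by omega) hiw.2 ?_ ik ?_ ?_ MB ?_ ?_ ha2 (by omega)
    · have := hw.rf
      omega
    · have e1 := hw.lev
      have e2 := hyy.lev
      rw [e1, e2, ← Nat.add_mul]
      congr 1
      omega
    · rw [H.rk w y le_rfl hwy le_rfl, hd]
    · rw [hm, h8μ]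
      exact Nat.mul_le_mul_right _ (by omega)
    · rw [hm, h8μ]
      have : (MuS x + 3) * m = MuS x * m + 3 * m := by ring
      omega
  have X := lctx_run (I := YI s.R s.pn s.Vs) (ofR_mt (F := s.F) (o := s.o) (o' := s.o') hμ) run.ok hρ.K1 N
    (by omega) (fun ω hω => hy_mt run.ok s.f2 hρ.K1 KB hr μB hμ hω) hiw hiy
  exact H958.hJ_V s.R.Q X (drK_rep s (ui s w)) (Nat.div_le_self _ 2) (ThK s y) fun ω ω' _ _ e => e

end

theorem juP : JuP := by
  refine ⟨cJu, cJu_nonneg, ?_⟩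
  intro b _ η _ x δh e3 _ _ _
  refine ⟨1, one_pos, fun θ _ _ => ⟨1, one_pos, fun δ1 _ _ σ _ _ => ⟨1, one_pos, fun ε _ _ ρ hρ => ?_⟩⟩⟩
  refine Suf.of_ev3 fun g _ => ?_
  have h1 : Ev3 fun m _ _ => 2 ≤ m := Ev3.of_m (ev_nat 2)
  have h2 : Ev3 fun _ B _ => KS ρ ≤ (B : ℝ) :=
    Ev3.of_B' fun _ => (ev_con (KS ρ) (κ := 1) one_pos).mono fun B h => by simpa using h
  have h3 : Ev3 fun m B _ => μS x m ≤ B := Ev3.of_B' fun m => ev_nat (μS x m)
  have h4 : Ev3 fun _ B _ => MuS x + 3 ≤ B := Ev3.of_B' fun _ => ev_nat (MuS x + 3)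
  refine (Ev3.mono ((h1.and h2).and (h3.and h4)) fun m B h H s w hPF => ?_).out
  refine (ju_st hρ H.1.1 H.1.2 H.2.1 H.2.2 s hPF).trans ?_
  have hl2 : 0 < Real.log 2 := Real.log_pos (by norm_num)
  have hm1 : (1 : ℝ) ≤ m := by
    have := H.1.1
    have h5 : 1 ≤ m := by omega
    exact_mod_cast h5
  have e : s.mm = m * Real.log 2 := by
    unfold St.mm
    rw [s.run.hm]
  rw [e]
  have e1 : (m : ℝ) * Real.log 2 * cJu x = m * (18 * (cμ * xS x) * Real.log 2 + 9 * Real.log (64 * 10 ^ 15) + 16) := by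
    unfold cJu
    field_simp
  rw [e1]
  have e2 : ((μS x m : ℕ) : ℝ) = cμ * xS x * m := by
    unfold μS
    push_cast
    ring
  rw [e2]
  have k1 := hρ.K1
  have k2 := hρ.K2
  have e3 : Real.log (64 * ρ.K) ≤ Real.log (64 * 10 ^ 15) := Real.log_le_log (by linarith) (by linarith)
  have e4 : 0 ≤ Real.log (64 * 10 ^ 15) := Real.log_nonneg (by norm_num)
  have e5 : 9 * Real.log (64 * 10 ^ 15) + 16 ≤ m * (9 * Real.log (64 * 10 ^ 15) + 16) :=
    le_mul_of_one_le_left (by linarith) hm1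
  have e6 : (m : ℝ) * (18 * (cμ * xS x) * Real.log 2 + 9 * Real.log (64 * 10 ^ 15) + 16) =
      18 * (cμ * xS x * m) * Real.log 2 + m * (9 * Real.log (64 * 10 ^ 15) + 16) := by ring
  rw [e6]
  linarith

end Vale.Agent.P106.U.H457
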