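import Vale.Agent.P106.U.H495.RK1
import Vale.Agent.P106.U.H683.FzA

/-!
# P106 / U / H457 : nestedness of the cells (helper457)

* **`ndP`** : input `NdP` of row [K] (helper495): over an interval `[w, y]` of pure levels the cell `mtr` of the level `w` has few
  values given the cell of the level `y` (helper683's `hc_lt_mtr`, `hc_mtr`).
-/

set_option autoImplicit false

namespace Vale.Agent.P106.U.H457

open Finset Vale.Agent.P127 Vale.Agent.P127.Stk Vale.Agent.P127.U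
open Vale.Agent.P127.U.CellD (q2)
open Vale.Agent.P106.U.S5 hiding Cst
open Vale.Agent.P106.U.MIC
open Vale.Agent.P106.U.H652 (Ev3 ev_nat ev_con)
open Vale.Agent.P106.U.H495.RK (PF LvF MtK NdP ui)
open Vale.Agent.P106.U.H785.Mtr (YI hy_mt)
open Vale.Agent.P106.U.H683.FzA (cM hc_lt_mtr hc_mtr)

theorem cM_nonneg (K : ℝ) : 0 ≤ cM K := by
  unfold cM H683.FzA.cL
  have h1 : 0 ≤ Real.log ((2 * ⌈19 * K⌉₊ + 3 : ℕ) : ℝ) := Real.log_natCast_nonneg _
  have h2 : 0 ≤ Real.log (2 * (H300.MK (8 * K) : ℝ) + 3) := by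
    refine Real.log_nonneg ?_
    have : (0 : ℝ) ≤ H300.MK (8 * K) := Nat.cast_nonneg _
    linarith
  linarith

section

variable {η : ℝ} {x : ℕ} {σ : S5.Cst} {ε : ℝ} {ρ : Thr} {g : Gv} {m B h : ℕ}

theorem nd_st (hρ : ρ.Ok) (m1 : 1 ≤ m) (KB : KS ρ ≤ B) (μB : μS x m ≤ B) (s : St η x σ ε ρ g m B h) {w y : ℕ}
    (H : PF s w y) : hc s.R.Q (MtK s w) (MtK s y) ≤ cM (4 * ρ.K) := by
  have run := s.run
  have hP := run.ok.pth
  have hm : s.R.m = m := run.hm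
  have hμ : μS x m ≤ s.R.C.μ := by
    rw [run.hμ]
    exact μB.trans (Nat.le_mul_of_pos_left B m1)
  have hr : 100 * (s.R.m * B) ≤ s.R.r0 := by
    rw [hm, run.hr0]
    exact run.rm
  have hb : 8 * μS x m ≤ s.R.m * s.R.b1 := by
    have h1 := run.cap.low
    have h3 : s.R.b1 ≤ s.R.m * s.R.b1 := Nat.le_mul_of_pos_left _ hP.m1
    omega
  have hw := H.lv w le_rfl H.wy
  have hy := H.lv y H.wy le_rfl
  have ik : ui s w ≤ ui s y := by
    rcases H.wy.eq_or_lt with e | e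
    · rw [e]
    · exact (H.up w y le_rfl e le_rfl).le
  have hn : ui s y < s.R.n := hy.kn
  have hHy : ∀ ω, 0 < s.R.Q.w ω → (H495.RK.M s).Hy (4 * ρ.K) (YI s.R s.pn s.Vs) ω := fun ω hω =>
    hy_mt run.ok s.f2 hρ.K1 KB hr μB hμ hω
  have K4 : 1 ≤ 4 * ρ.K := by linarith [hρ.K1]
  have hiw : ui s w ∈ YI s.R s.pn s.Vs := ⟨by omega, by rw [hw.lv]; exact hw.V⟩
  have hiy : ui s y ∈ YI s.R s.pn s.Vs := ⟨by omega, by rw [hy.lv]; exact hy.V⟩
  have hpf : ∀ k, ui s w ≤ k → k ≤ ui s y → Stk.Fn s.R.Q (s.F.pf (ui s w)) (s.F.pf k) := by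
    intro k h1
    induction k, h1 using Nat.le_induction with
    | base => exact fun _ _ _ _ _ e => e
    | succ k h1 ih =>
      intro h2 ω ω' p p' e
      exact ih (by omega) ω ω' p p' (s.f2.pfH k (by omega) ω ω' p p' e)
  have hrk : s.R.r0 ≤ s.R.C.rk (ui s w) := hP.k0 ▸ s.R.C.hk (Nat.zero_le _)
  have hrf := s.R.C.hkf (ui s w)
  have hmB : μS x m ≤ s.R.m * B := by rw [hm]; exact μB.trans (Nat.le_mul_of_pos_left B m1)
  refine hc_mtr (D := H495.RK.M s) (I := YI s.R s.pn s.Vs) s.R.Q K4 hHy hiw hiy ik hb ?_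
    (hc_lt_mtr (D := H495.RK.M s) (I := YI s.R s.pn s.Vs) s.R.Q K4 hHy hiw hiy ik ?_ (hpf _ ik le_rfl))
  · show 8 * μS x m ≤ min (s.R.C.rk (ui s w) - μS x m / 2 + s.R.m * s.R.b1) (s.R.C.rf (ui s w))
    omega
  · show μS x m ≤ s.R.m * s.R.b1
    omega

end

theorem ndP : NdP := by
  intro b _ η _ x δh e3 _ _ _
  refine ⟨1, one_pos, fun θ _ _ => ⟨1, one_pos, fun δ1 _ _ σ _ _ => ⟨1, one_pos, fun ε _ _ ρ hρ => ?_⟩⟩⟩
  refine ⟨cM (4 * ρ.K), cM_nonneg _, Suf.of_ev3 fun g _ => ?_⟩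
  have h1 : Ev3 fun m _ _ => 1 ≤ m := Ev3.of_m (ev_nat 1)
  have h2 : Ev3 fun _ B _ => KS ρ ≤ (B : ℝ) :=
    Ev3.of_B' fun _ => (ev_con (KS ρ) (κ := 1) one_pos).mono fun B h => by simpa using h
  have h3 : Ev3 fun m B _ => μS x m ≤ B := Ev3.of_B' fun m => ev_nat (μS x m)
  refine (Ev3.mono (h1.and (h2.and h3)) fun m B h H s w y hPF => ?_).out
  exact nd_st hρ H.1 H.2.1 H.2.2 s hPF

end Vale.Agent.P106.U.H457
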