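import Vale.Agent.P106.U.H457.CW
import Vale.Agent.P106.U.H833.WinS
import Vale.Agent.P106.U.H122.CY

/-!
# P106 / U / H457 : the collisions of a counted old step, pointwise, row [SC] kind 0 (helper457)

`R` = run (already with the low margin), base = cap `b = m b1`, `f` = indices, `j` = counted step of helper833's `win_old`.

* `wS` : bound of the collisions of the direction (both regimes) and of the plane (type (ii)) at an index `t`; the only event is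
  `Bad K'' t b`.
* `pair_adm` : an admissible pair.
* **`colN_of`** : `ColN` of the step `j` with `w = wS (f (j + 1))`.
* **`colN_all`** : hypothesis `Co` of `win_old`, `win_old_all`.
-/

set_option autoImplicit false

namespace Vale.Agent.P106.U.H457

open Finset Vale.Agent.P127 Vale.Agent.P127.Stk Vale.Agent.P127.U Vale.Agent.P106.W Vale.Agent.P106.U
open Vale.Agent.P106.K (Ry RyOk bl Bin)
open Vale.Agent.P127.U.CellD (q2 rd q2_pos q2_add q2_le)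
open Vale.Agent.P127.U.Mic (colp colp_nonneg)
open Vale.Agent.P106.U.Cell (Pth Ray)
open Vale.Agent.P106.U.S3 (Run)
open Vale.Agent.P106.U.H118 (Sdat CS mem_CS)
open Vale.Agent.P106.U.H833
open Vale.Agent.P106.U.H931 (Lv cB Nq nx XN lvi)

variable {Ω : Type} [Fintype Ω] {τ υ : Type} {R : Run Ω τ υ} {p : Run.Num} {K c' g' gU : ℝ}

/-- bound of the collisions of the direction and of the plane at the index `t` : `ε` = accuracy of the good steps, `εc` = activity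
of the cap, `Nn` = number of values of the digits of the slope given `W'` -/
noncomputable def wS (R : Run Ω τ υ) (c' ε εc K'' : ℝ) (Nn g t : ℕ) : ℝ :=
  (36 * ε + 6 * q2 (2 * g) + 3 * prE R.Q (R.C.Bad K'' t (R.m * R.b1))) / c' +
    (4 * Real.sqrt (((2 * Nn + 3 : ℕ) : ℝ) * εc) + 2 * εc)

theorem wS_nonneg {ε εc K'' : ℝ} (hc : 0 < c') (hε : 0 ≤ ε) (hεc : 0 ≤ εc) (Nn g t : ℕ) :
    0 ≤ wS R c' ε εc K'' Nn g t := by
  unfold wS
  have h1 := prE_nonneg R.Q (R.C.Bad K'' t (R.m * R.b1))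
  have h2 := q2_pos (2 * g)
  positivity

section pair

variable {f : ℕ → ℕ} {N x Wd Kr : ℕ} {γ : ℕ → Prop}

/-- the pair (step, later step), what is used here -/
structure PairC (R : Run Ω τ υ) (x N : ℕ) (f : ℕ → ℕ) (Wd Kr j i : ℕ) : Prop where
  hji : j + 1 ≤ i
  hi : i ≤ N
  hKr : aN R (f (j + 1)) + Kr ≤ aN R (f i)
  hmix : ∀ t, j ≤ t → t ≤ i → ¬ mixed R x Wd (f t)

/-- an admissible pair -/
theorem pair_adm (D : Sdat N γ (fun i => aN R (f i)) (fun i => RN R x (f i))) {L1 L2 Lk : ℕ} (hKr : 0 < Kr)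
    (hLk : Kr ≤ Lk) {pu : ℕ → Prop} (hpu : ∀ t ≤ N, pu (aN R (f t)) → ¬ mixed R x Wd (f t)) {j k : ℕ}
    (A : AdmO N (fun i => aN R (f i)) pu L1 L2 Kr Lk j k) :
    PairC R x N f Wd Kr j (lx N (fun i => aN R (f i)) Kr k) := by
  obtain ⟨j2, hkL, ⟨i1, hki1, hi1, hi2, hKK⟩, hpure⟩ := A
  set a : ℕ → ℕ := fun i => aN R (f i) with ha
  have hKK' : a k + Kr + 1 ≤ a i1 := by omega
  obtain ⟨q1, q2, q3, q4⟩ := lx_spec D hi1 hki1 hKr hKK'
  have hjk : a (j + 1) ≤ a k := D.am (by omega) (by omega)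
  refine ⟨by omega, by omega, ?_, ?_⟩
  · show a (j + 1) + Kr ≤ a (lx N a Kr k)
    omega
  · intro t t1 t2
    refine hpu t (by omega) (hpure _ ?_ ?_)
    · exact D.am (i := j) (j := t) t1 (by omega)
    · have h5 : a t ≤ a (lx N a Kr k) := D.am (i := t) (j := lx N a Kr k) t2 (by omega)
      show a t ≤ a k + Lk
      omega

/-- intermediate step (helper833's `kap_y`) -/
theorem kap_mid {K : ℝ} {cc M s c0 g pv b' Mu Lb : ℕ} (hP : R.Path p) (hf : Monotone f) (hN : f N ≤ R.n)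
    (H : NumN R p K cc x M s c0 g pv b' Mu Wd Kr Lb)
    (D : Sdat N γ (fun i => aN R (f i)) (fun i => RN R x (f i))) {j i : ℕ} (Q : PairC R x N f Wd Kr j i)
    (hr : isKap R x Wd (f j)) :
      ∃ y, j + 1 ≤ y ∧ y ≤ i ∧ R.C.rk (f (j + 1)) + 8 * R.C.μ ≤ R.C.rk (f y) ∧ R.C.a (f y) + 8 * R.C.μ ≤ R.C.a (f i) := by
  have hji := Q.hji
  have hi := Q.hi
  have hfi : f i ≤ R.n := (hf hi).trans hN
  have hfj1 : f (j + 1) ≤ R.n := (hf (by omega)).trans hN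
  have hW : 1 ≤ Wd := by have := H.W1; omega
  have hKr1 := H.Kr1
  have hKr := Q.hKr
  obtain ⟨y, hy1, hy2, hy3⟩ := ex_lev hP hf hN D (j := j + 1) (i := i) (v := aN R (f (j + 1)) + p.J * Mu) hji hi
    (by omega) (by omega)
  have gy := advT hP hf hN D H.hx Mu (j + 1) y hy1 (by omega) (by omega)
  have hr1 : isKap R x Wd (f (j + 1)) :=
    kap_same hP hf hN D hW (Nat.le_succ j) (by omega) hr fun t h1 h2 => Q.hmix t h1 (by omega)
  have hry : isKap R x Wd (f y) :=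
    kap_same hP hf hN D hW (by omega : j ≤ y) (by omega) hr fun t h1 h2 => Q.hmix t h1 (by omega)
  have eR1 := hr1.RN
  have eRy := hry.RN
  have hMu8 := H.Mu8
  have hfy : f y ≤ R.n := (hf (hy2.trans hi)).trans hN
  refine ⟨y, hy1, hy2, ?_, ?_⟩
  · have uy : R.m * kN R (f (j + 1)) + R.m * Mu ≤ R.m * kN R (f y) := by
      rw [← Nat.mul_add]
      exact Nat.mul_le_mul_left _ (by omega)
    rw [lev_k hP (i := f y) (by omega), lev_k hP (i := f (j + 1)) (by omega)]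
    omega
  · have vy : R.m * aN R (f y) + R.m * Mu ≤ R.m * aN R (f i) := by
      rw [← Nat.mul_add]
      exact Nat.mul_le_mul_left _ (by omega)
    rw [lev_a hP (i := f y) (by omega), lev_a hP (i := f i) (by omega)]
    omega

end pair

section col

variable {f : ℕ → ℕ} (hf : Monotone f) {N cc M s c0 c1 g pv b' Mu Wd Kr Lb : ℕ} {ε : ℝ} {b0 : ℕ} {γ : ℕ → Prop}

include hf in
/-- **the collisions of a counted old step** -/
theorem colN_of (h : R.Ok p K c' g' gU) {c : ℝ} (hc : 1 ≤ c)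
    (hlb : ∀ ω, 0 < R.Q.w ω → LbOk c R.L R.h (R.W ω) (R.ry ω) (R.t ω) ∧ (R.W ω).u2 = 1 ∧
      (R.W ω).u1 = (1 / 2 : ℝ) ^ R.q) (hc0 : 0 < c') (hc1 : c' ≤ 1) (hN : f N ≤ R.n)
    (H : NumN R p K cc R.b1 M s c0 g pv b' Mu Wd Kr Lb) (D : Sdat N γ (fun i => aN R (f i)) (fun i => RN R R.b1 (f i)))
    (hLv : ∀ t ≤ R.n, Lv R p K c t) {B : ℕ} {εc : ℝ} (cap : R.Cap p B εc) {Nn : ℕ}
    (hNn : 40 * ((3 * K) ^ 5 * (6 * c ^ 2 * K)) + 2 * K ≤ Nn) {K'' : ℝ} (hK'' : cB K c ≤ K'')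
    (hs : p.s ≤ s) (hs4 : 4 ≤ p.s) (hcc : c ≤ 2 ^ c1) (hc1μ : c1 ≤ R.C.μ) (hm5 : 5 * c0 + 4 ≤ 2 * R.m)
    {e1 : ℝ} {K' : ℕ} (hKK : K ≤ K')
    (he1 : Real.sqrt (((2 * K' + 3 : ℕ) : ℝ) * ((2 * (K' + 1 : ℕ) + 1) * ε)) ≤ e1) (he2 : 10 * ε ≤ e1) {j i : ℕ}
    (nq : Nq R p ε b0 R.b1 M (f (j + 1)) (f (nx N (fun i => aN R (f i)) (j + 1)))) (Q : PairC R R.b1 N f Wd Kr j i) :
    ColN R p K ε hf R.b1 M s N g Wd j i e1 (wS R c' ε εc K'' Nn g (f (j + 1))) K' := by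
  have hP := h.pth
  have hK := H.K1
  have hKc : K ≤ 2 ^ c0 := by
    have := H.Kc
    linarith
  have hji := Q.hji
  have hi := Q.hi
  have hε0 : 0 ≤ ε := (colp_nonneg R.Q _ _).trans nq.good.time
  have hεc0 : 0 ≤ εc := (colp_nonneg R.Q _ _).trans cap.act
  have hfj : f (j + 1) ≤ R.n := (hf (by omega : j + 1 ≤ N)).trans hN
  have L := hLv _ hfj
  have hgg := H.hg
  have hexp : (M + s + 1) * R.m = M * R.m + s * R.m + R.m := by ring
  have hsm : 4 * R.m ≤ s * R.m := Nat.mul_le_mul_right _ (hs4.trans hs)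
  have hpm : 4 * R.m ≤ p.s * R.m := Nat.mul_le_mul_right _ hs4
  have hmg : R.m ≤ g := by omega
  have hm1 := hP.m1
  have hμ8 : 800 * (g + c0 + 1) ≤ R.C.μ := (Nat.mul_le_mul_right _ H.cc8).trans H.hμ
  have hx8 : 8 * R.C.μ ≤ R.m * R.b1 := by
    have h1 : R.m * Mu ≤ R.m * R.b1 := Nat.mul_le_mul_left _ H.Mux
    have h2 := H.Mu8
    omega
  have hWS : ∀ ω, 0 < R.Q.w ω → Shp c 0 R.q (R.W ω) ∧ Bin c (R.W ω) 0 (bl R.h (R.ry ω) (R.t ω)) := by
    intro ω hω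
    obtain ⟨l1, l2, l3⟩ := hlb ω hω
    exact ⟨⟨by rw [l2, pow_zero], l3, l1.α2, l1.κ2⟩, l1.inn⟩
  have hq2 := q2_pos (2 * g)
  have hsq : 0 ≤ Real.sqrt (((2 * Nn + 3 : ℕ) : ℝ) * εc) := Real.sqrt_nonneg _
  have hBm : prE R.Q (R.C.Bad (cB K c) (f (j + 1)) (R.m * R.b1)) ≤
      prE R.Q (R.C.Bad K'' (f (j + 1)) (R.m * R.b1)) := prE_mono' R.Q fun ω _ hb => Pth.Bad_mono hK'' hb
  have hB0 := prE_nonneg R.Q (R.C.Bad K'' (f (j + 1)) (R.m * R.b1))
  have hdiv : ∀ y : ℝ, 0 ≤ y → y ≤ y / c' := fun y hy => by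
    rw [le_div_iff₀ hc0]
    exact mul_le_of_le_one_right hy hc1
  have h3B : 3 * prE R.Q (R.C.Bad K'' (f (j + 1)) (R.m * R.b1)) ≤
      (36 * ε + 6 * q2 (2 * g) + 3 * prE R.Q (R.C.Bad K'' (f (j + 1)) (R.m * R.b1))) / c' := by
    refine (hdiv _ (by positivity)).trans ?_
    exact (div_le_div_iff_of_pos_right hc0).2 (by linarith)
  refine ⟨hKK, he1, he2, wS_nonneg hc0 hε0 hεc0 _ _ _, ?_, ?_, ?_⟩
  · -- phi regime
    intro hphi
    have hph : R.C.rf (f (j + 1)) ≤ R.m * R.b1 + R.C.rk (f (j + 1)) := by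
      unfold isPhi at hphi
      have u : R.m * fN R (f (j + 1)) ≤ R.m * kN R (f (j + 1)) + R.m * R.b1 := by
        rw [← Nat.mul_add]
        exact Nat.mul_le_mul_left _ (by omega)
      rw [lev_k hP (i := f (j + 1)) (by omega), lev_f hP (i := f (j + 1)) (by omega)]
      omega
    have h1 := H122.cY_run h hK hc hWS hfj L.lev hph L.rk L.a L.A L.q L.b hNn cap.act hmg
    refine (show MIC.cY R.Q (R.C.re f hf) (R.m * R.b1) (j + 1) g ≤ _ from h1).trans ?_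
    unfold wS
    change _ + 3 * prE R.Q (R.C.Bad (cB K c) (f (j + 1)) (R.m * R.b1)) ≤ _
    linarith
  · -- kappa regime, direction
    intro _
    have h1 := H931.cY_cell h hK hc hlb cap L hmg
    refine (show H931.cYc R.Q (R.C.re f hf) (R.m * R.b1) (j + 1) g ≤ _ from h1).trans ?_
    unfold wS
    linarith
  · -- type (ii)
    intro hkap hII fr hfr hkfr
    have hW : 1 ≤ Wd := by have := H.W1; omega
    have hr : isKap R R.b1 Wd (f j) := by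
      rcases reg_or (Q.hmix j le_rfl (by omega)) with hr | hr
      · exact absurd hkap (phi_same hP hf hN D hW (Nat.le_succ j) (by omega) hr
          fun t h1 h2 => Q.hmix t h1 (by omega)).not_kap
      · exact hr
    obtain ⟨y, hy1, hy2, r8, a8⟩ := kap_mid hP hf hN H D Q hr
    have hfi : f i ≤ R.n := (hf hi).trans hN
    have hfr' : f fr ≤ R.n := (hf hfr).trans hfj
    have h1 := cW_m h hK hc hlb hc0 hc1 hf (g := g) hfr hkfr nq
      (by unfold isKap at hkap; have := H.W1; omega)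
      (by
        have : p.s * R.m ≤ s * R.m := Nat.mul_le_mul_right _ hs
        omega) hy1 hy2 hfi r8 a8 hx8 (hLv _ hfr') L hKc hcc
      (by omega) (by omega) (by omega) (by omega)
    refine h1.trans ?_
    unfold wS
    have h2 : (36 * ε + 2 * prE R.Q (R.C.Bad (cB K c) (f (j + 1)) (R.m * R.b1)) + 6 * q2 (2 * g)) / c' ≤
        (36 * ε + 6 * q2 (2 * g) + 3 * prE R.Q (R.C.Bad K'' (f (j + 1)) (R.m * R.b1))) / c' :=
      (div_le_div_iff_of_pos_right hc0).2 (by linarith)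
    linarith

include hf in
/-- **hypothesis `Co` of `win_old_all`** -/
theorem colN_all (h : R.Ok p K c' g' gU) {c : ℝ} (hc : 1 ≤ c)
    (hlb : ∀ ω, 0 < R.Q.w ω → LbOk c R.L R.h (R.W ω) (R.ry ω) (R.t ω) ∧ (R.W ω).u2 = 1 ∧
      (R.W ω).u1 = (1 / 2 : ℝ) ^ R.q) (hc0 : 0 < c') (hc1 : c' ≤ 1) (hN : f N ≤ R.n)
    (H : NumN R p K cc R.b1 M s c0 g pv b' Mu Wd Kr Lb) (hγ : ∀ j, γ j → R.Good p ε b0 (f j))
    (D : Sdat N γ (fun i => aN R (f i)) (fun i => RN R R.b1 (f i))) {E : Finset ℕ}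
    (hE : ∀ i < N, aN R (f (i + 1)) = aN R (f i) + 1 → ¬ γ i → i ∈ E) {L1 L2 Lk : ℕ} (hKr : 0 < Kr)
    (hLk : Kr ≤ Lk) (pu : ℕ → Prop) (hpu : ∀ t ≤ N, pu (aN R (f t)) → ¬ mixed R R.b1 Wd (f t))
    (hLv : ∀ t ≤ R.n, Lv R p K c t) {B : ℕ} {εc : ℝ} (cap : R.Cap p B εc) {Nn : ℕ}
    (hNn : 40 * ((3 * K) ^ 5 * (6 * c ^ 2 * K)) + 2 * K ≤ Nn) {K'' : ℝ} (hK'' : cB K c ≤ K'')
    (hs : p.s ≤ s) (hs4 : 4 ≤ p.s) (hcc : c ≤ 2 ^ c1) (hc1μ : c1 ≤ R.C.μ) (hm5 : 5 * c0 + 4 ≤ 2 * R.m)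
    {e1 : ℝ} {K' : ℕ} (hKK : K ≤ K')
    (he1 : Real.sqrt (((2 * K' + 3 : ℕ) : ℝ) * ((2 * (K' + 1 : ℕ) + 1) * ε)) ≤ e1) (he2 : 10 * ε ≤ e1) :
    ∀ j k, j ∉ XN M N (fun i => aN R (f i)) (fun i => RN R R.b1 (f i)) E →
      j ∈ CS M N γ (fun i => aN R (f i)) (fun i => RN R R.b1 (f i)) 0 N →
      AdmO N (fun i => aN R (f i)) pu L1 L2 Kr Lk j k →
      ColN R p K ε hf R.b1 M s N g Wd j (lx N (fun i => aN R (f i)) Kr k) e1
        (wS R c' ε εc K'' Nn g (f (j + 1))) K' := by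
  intro j k hX hj A
  exact colN_of hf h hc hlb hc0 hc1 hN H D hLv cap hNn hK'' hs hs4 hcc hc1μ hm5 hKK he1 he2
    (nq_g h.pth hf hN hγ D hE le_rfl hj hX) (pair_adm D hKr hLk hpu A)

end col

end Vale.Agent.P106.U.H457
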