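import Vale.Agent.P127.Stk.Lib

/-!
# P106 / U / H457 : Shannon part of SUB (helper61's TEXT S1 (5), note 17579)

Two copies `w 0`, `w 1` of a law, conditionally independent given `(l, Z)`; `X` any variable of the pair, `J` a function of
`(X, A (w 0))` with at most `N` values given `(X, A (w 1), Z)`:

`H(l | J, Z) + H(l | A₁, A₂, Z) ≥ 2 H(l | A, Z) - 2 H(X) - log N`.
-/

set_option autoImplicit false

namespace Vale.Agent.P106.U.H457

open Finset Vale.Agent.P127 Vale.Agent.P127.Stk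

section shannon

variable {Ω : Type} [Fintype Ω] {Λ ζ α β : Type*}

theorem supp2 {P : Law Ω} {V : Ω → ζ} {Q : Law (Fin 2 → Ω)} (hQ : ∀ w, Q.w w = cw P V 1 w) {w : Fin 2 → Ω}
    (hw : 0 < Q.w w) : V (w 1) = V (w 0) ∧ 0 < P.w (w 0) ∧ 0 < P.w (w 1) :=
  ⟨(cw_supp hQ hw).1 1, (cw_supp hQ hw).2 0, (cw_supp hQ hw).2 1⟩

/-- `H(l | A₁, A₂, Z) = 2 H(l | A, Z) - H(l | Z) + I(A₁ ; A₂ | Z)` -/
theorem two_copies (P : Law Ω) (l : Ω → Λ) (Z : Ω → ζ) (A : Ω → α) (Q : Law (Fin 2 → Ω))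
    (hQ : ∀ w, Q.w w = cw P (fun ω => (l ω, Z ω)) 1 w) :
    hc Q (fun w => l (w 0)) (fun w => (A (w 0), A (w 1), Z (w 0))) =
      2 * hc P l (fun ω => (A ω, Z ω)) - hc Q (fun w => l (w 0)) (fun w => Z (w 0)) +
        mi Q (fun w => A (w 0)) (fun w => A (w 1)) (fun w => Z (w 0)) := by
  have e1 : hc Q (fun w => l (w 0)) (fun w => (A (w 0), Z (w 0))) = hc P l (fun ω => (A ω, Z ω)) :=
    cw_hc hQ 0 l (fun ω => (A ω, Z ω))
  have e2' : hc Q (fun w => l (w 1)) (fun w => (A (w 1), Z (w 1))) = hc P l (fun ω => (A ω, Z ω)) :=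
    cw_hc hQ 1 l (fun ω => (A ω, Z ω))
  have e2 : hc Q (fun w => l (w 0)) (fun w => (A (w 1), Z (w 0))) = hc P l (fun ω => (A ω, Z ω)) := by
    rw [← e2']
    refine hc_congr Q ?_ ?_ ?_ ?_
    · intro w w' h h' e
      have h1 := (supp2 hQ h).1
      have h2 := (supp2 hQ h').1
      simp only [Prod.mk.injEq] at h1 h2 e
      simp only
      rw [← h1.1, ← h2.1]
      exact e.1
    · intro w w' h h' e
      have h1 := (supp2 hQ h).1
      have h2 := (supp2 hQ h').1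
      simp only [Prod.mk.injEq] at h1 h2 e
      simp only
      rw [h1.1, h2.1]
      exact e.1
    · intro w w' h h' e
      have h1 := (supp2 hQ h).1
      have h2 := (supp2 hQ h').1
      simp only [Prod.mk.injEq] at h1 h2 e ⊢
      exact ⟨e.1, by rw [← h1.2, ← h2.2]; exact e.2⟩
    · intro w w' h h' e
      have h1 := (supp2 hQ h).1
      have h2 := (supp2 hQ h').1
      simp only [Prod.mk.injEq] at h1 h2 e ⊢
      exact ⟨e.1, by rw [h1.2, h2.2]; exact e.2⟩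
  -- conditional independence
  have e3 : hc Q (fun w => A (w 0)) (fun w => (A (w 1), l (w 0), Z (w 0))) = hc P A (fun ω => (l ω, Z ω)) :=
    cw_indep hQ 0 A (fun w => A (w 1)) (fun w w' h => by rw [h 1 (by decide)])
  have e4 : hc Q (fun w => A (w 0)) (fun w => (l (w 0), Z (w 0))) = hc P A (fun ω => (l ω, Z ω)) :=
    cw_hc hQ 0 A (fun ω => (l ω, Z ω))
  set L := fun w : Fin 2 → Ω => l (w 0)
  set A1 := fun w : Fin 2 → Ω => A (w 0)
  set A2 := fun w : Fin 2 → Ω => A (w 1)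
  set Z0 := fun w : Fin 2 → Ω => Z (w 0)
  -- chain rules
  have c1 := hc_pair Q A1 L Z0
  have c2 := hc_pair Q L A1 Z0
  have c1' := hc_pair Q A2 L Z0
  have c2' := hc_pair Q L A2 Z0
  have s1 : hc Q (fun w => (A1 w, L w)) Z0 = hc Q (fun w => (L w, A1 w)) Z0 := by
    refine hc_congr Q ?_ ?_ (fun _ _ _ _ e => e) (fun _ _ _ _ e => e) <;>
    · intro w w' _ _ e
      simp only [Prod.mk.injEq] at e ⊢
      exact ⟨e.1.2, e.1.1⟩
  have s2 : hc Q (fun w => (A2 w, L w)) Z0 = hc Q (fun w => (L w, A2 w)) Z0 := by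
    refine hc_congr Q ?_ ?_ (fun _ _ _ _ e => e) (fun _ _ _ _ e => e) <;>
    · intro w w' _ _ e
      simp only [Prod.mk.injEq] at e ⊢
      exact ⟨e.1.2, e.1.1⟩
  -- joint
  have d1 := hc_pair Q (fun w => (A2 w, A1 w)) L Z0
  have d2 := hc_pair Q A2 A1 Z0
  have d3 := hc_pair Q L (fun w => (A2 w, A1 w)) Z0
  have d4 := hc_pair Q A2 A1 (fun w => (L w, Z0 w))
  have s3 : hc Q (fun w => ((A2 w, A1 w), L w)) Z0 = hc Q (fun w => (L w, (A2 w, A1 w))) Z0 := by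
    refine hc_congr Q ?_ ?_ (fun _ _ _ _ e => e) (fun _ _ _ _ e => e) <;>
    · intro w w' _ _ e
      simp only [Prod.mk.injEq] at e ⊢
      exact ⟨e.1.2, e.1.1⟩
  have s4 : hc Q L (fun w => ((A2 w, A1 w), Z0 w)) = hc Q L (fun w => (A1 w, A2 w, Z0 w)) := by
    refine hc_congr Q (fun _ _ _ _ e => (Prod.mk.inj e).1) (fun _ _ _ _ e => (Prod.mk.inj e).1) ?_ ?_ <;>
    · intro w w' _ _ e
      simp only [Prod.mk.injEq] at e ⊢
      tauto
  have m1 : mi Q A1 A2 Z0 = hc Q A1 Z0 - hc Q A1 (fun w => (A2 w, Z0 w)) := rfl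
  linarith

/-- **two copies** -/
theorem sub_shannon (P : Law Ω) (l : Ω → Λ) (Z : Ω → ζ) (A : Ω → α) (Q : Law (Fin 2 → Ω))
    (hQ : ∀ w, Q.w w = cw P (fun ω => (l ω, Z ω)) 1 w) (X : (Fin 2 → Ω) → ℕ) (J : (Fin 2 → Ω) → β) (N : ℕ)
    (hJ1 : Fn Q J (fun w => (X w, A (w 0))))
    (hJ2 : ∀ w, 0 < Q.w w → ∃ F : Finset β, F.card ≤ N ∧ ∀ w', 0 < Q.w w' → X w' = X w → A (w' 1) = A (w 1) → J w' ∈ F) :
    2 * hc P l (fun ω => (A ω, Z ω)) - 2 * Q.H X - Real.log N ≤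
      hc Q (fun w => l (w 0)) (fun w => (J w, Z (w 0))) +
        hc Q (fun w => l (w 0)) (fun w => (A (w 0), A (w 1), Z (w 0))) := by
  have h0 := two_copies P l Z A Q hQ
  set L := fun w : Fin 2 → Ω => l (w 0)
  set A1 := fun w : Fin 2 → Ω => A (w 0)
  set A2 := fun w : Fin 2 → Ω => A (w 1)
  set Z0 := fun w : Fin 2 → Ω => Z (w 0)
  -- H(l | J, Z) ≥ H(l | Z) - H(J | Z)
  have h1 : hc Q L Z0 - hc Q L (fun w => (J w, Z0 w)) ≤ hc Q J Z0 := by
    have := mi_le_hc' Q L J Z0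
    unfold mi at this
    exact this
  -- I(A₁, X ; A₂ | Z) ≤ I(A₁ ; A₂ | Z) + H(X)
  have h2 : mi Q (fun w => (A1 w, X w)) A2 Z0 ≤ mi Q A1 A2 Z0 + Q.H X := by
    rw [mi_symm Q _ A2, mi_pair, mi_symm Q A2 A1]
    have q1 := mi_le_hc' Q A2 X (fun w => (A1 w, Z0 w))
    have q2 := hc_le_H Q X (fun w => (A1 w, Z0 w))
    linarith
  have h3 : mi Q J A2 Z0 ≤ mi Q (fun w => (A1 w, X w)) A2 Z0 := by
    refine mi_mono_left Q A2 ?_
    intro w w' p p' e
    simp only [Prod.mk.injEq] at e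
    exact hJ1 w w' p p' (Prod.ext e.1.2 e.1.1)
  -- I(J ; A₂ | Z) ≥ H(J | Z) - H(X) - log N
  have h4 : hc Q J (fun w => (A2 w, Z0 w)) ≤ Q.H X + Real.log N := by
    have q1 := hc_le_add Q J X (fun w => (A2 w, Z0 w))
    have q2 := hc_le_H Q X (fun w => (A2 w, Z0 w))
    have q3 : hc Q J (fun w => (X w, A2 w, Z0 w)) ≤ Real.log N := by
      refine hc_le_log Q J _ N fun w hw => ?_
      obtain ⟨F, hF1, hF2⟩ := hJ2 w hw
      refine ⟨F, hF1, fun w' hw' e => ?_⟩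
      simp only [Prod.mk.injEq] at e
      exact hF2 w' hw' e.1 e.2.1
    linarith
  have h5 : mi Q J A2 Z0 = hc Q J Z0 - hc Q J (fun w => (A2 w, Z0 w)) := rfl
  linarith

/-- the label of the piece of the meet -/
theorem sub_meet (Q : Law (Fin 2 → Ω)) (L : (Fin 2 → Ω) → Λ) (A1 A2 : (Fin 2 → Ω) → α) (Z0 : (Fin 2 → Ω) → ζ)
    (M : (Fin 2 → Ω) → β) (i : (Fin 2 → Ω) → ℕ) (n : α → α → ℕ)
    (hM : Fn Q M (fun w => (i w, A1 w, A2 w))) (hi : ∀ w, 0 < Q.w w → i w < n (A1 w) (A2 w)) :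
    hc Q L (fun w => (A1 w, A2 w, Z0 w)) ≤ hc Q L (fun w => (M w, Z0 w)) + Q.ex (fun w => Real.log (n (A1 w) (A2 w))) := by
  classical
  have h1 := hc_le_add' Q L i (fun w => (A1 w, A2 w, Z0 w))
  have h2 : hc Q L (fun w => (i w, A1 w, A2 w, Z0 w)) ≤ hc Q L (fun w => (M w, Z0 w)) := by
    refine hc_mono_right Q L ?_
    intro w w' p p' e
    simp only [Prod.mk.injEq] at e ⊢
    exact ⟨hM w w' p p' (by simp only [Prod.mk.injEq]; exact ⟨e.1, e.2.1, e.2.2.1⟩), e.2.2.2⟩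
  have h3 : hc Q i (fun w => (A1 w, A2 w, Z0 w)) ≤ Q.ex (fun w => Real.log (n (A1 w) (A2 w))) := by
    have hg := Q.gibbs_cond i (fun w => (A1 w, A2 w, Z0 w))
      (fun j y => if j ∈ range (n y.1 y.2.1) then 1 / (n y.1 y.2.1 : ℝ) else 0)
      (fun j y => by split_ifs <;> positivity) ?_ (fun w hw => by
        have := hi w hw
        rw [if_pos (by simpa using this)]
        have h4 : (0 : ℝ) < n (A1 w) (A2 w) := by exact_mod_cast lt_of_le_of_lt (Nat.zero_le _) this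
        simp only
        positivity)
    · refine hg.trans (le_of_eq ?_)
      refine Q.ex_congr fun w hw => ?_
      have := hi w hw
      rw [if_pos (by simpa using this), one_div, Real.log_inv, neg_neg]
    · intro y G
      rw [← Finset.sum_filter, Finset.sum_const, nsmul_eq_mul, mul_one_div]
      refine div_le_one_of_le₀ ?_ (Nat.cast_nonneg _)
      have : (G.filter (fun j => j ∈ range (n y.1 y.2.1))).card ≤ (range (n y.1 y.2.1)).card :=
        Finset.card_le_card fun x hx => (Finset.mem_filter.1 hx).2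
      rw [card_range] at this
      exact_mod_cast this
  linarith

end shannon

end Vale.Agent.P106.U.H457
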