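import Vale.Agent.P106.U.H465.SubProps
import Vale.Agent.P106.U.H457.Shn

/-!
# P106 / U / H457 : THEOREM SUB (helper61's TEXT S1 (5), note 17579; cut of helper465)

`xs c b R B B'` = first `j` such that the frames of the boxes `B`, `B'` of shape `(b, R)` agree up to `2^j 2^-(R-b)` at some
common ray (at most `R - b`).

`sub_thm` : for a random label `A` of level `0` of deterministic shape `(b, R)` and two copies conditionally independent given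
`(l, t_0, C)`: `val J + val M ≥ 2 val A + (3/2) lam log 2 E x - 2 H(x) - K`, `J` of shape `(b, R - x)`, `M` of shape `(b + p, R)`,
`p ≤ x`.
-/

set_option autoImplicit false

namespace Vale.Agent.P106.U.H457

open Finset Vale.Agent.P127 Vale.Agent.P127.Stk Vale.Agent.P127.U Vale.Agent.P106.W Vale.Agent.P106.K Vale.Agent.P106.U

/-- the scales of agreement -/
def XS (c : ℝ) (b R : ℕ) (B B' : Cbx) : Set ℕ :=
  {j | j = R - b ∨ ∃ l, Bin c B 0 l ∧ Bin c B' 0 l ∧ Agr (2 ^ j * (1 / 2) ^ (R - b)) B B' l}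

/-- the first scale of agreement -/
noncomputable def xs (c : ℝ) (b R : ℕ) (B B' : Cbx) : ℕ := sInf (XS c b R B B')

theorem xs_mem (c : ℝ) (b R : ℕ) (B B' : Cbx) : xs c b R B B' ∈ XS c b R B B' :=
  Nat.sInf_mem ⟨R - b, Or.inl rfl⟩

theorem xs_le (c : ℝ) (b R : ℕ) (B B' : Cbx) : xs c b R B B' ≤ R - b := Nat.sInf_le (Or.inl rfl)

theorem xs_not {c : ℝ} {b R : ℕ} {B B' : Cbx} {j : ℕ} (h : j < xs c b R B B') {l : Ry} (h1 : Bin c B 0 l)
    (h2 : Bin c B' 0 l) : ¬ Agr (2 ^ j * (1 / 2) ^ (R - b)) B B' l := fun h3 =>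
  absurd (Nat.sInf_le (show j ∈ XS c b R B B' from Or.inr ⟨l, h1, h2, h3⟩)) (not_le.2 h)

theorem bin_mono {c c' : ℝ} (hcc : c ≤ c') {B : Cbx} (h1 : 0 ≤ B.u1) (h2 : 0 ≤ B.u2) {l : Ry} (h : Bin c B 0 l) :
    Bin c' B 0 l := by
  obtain ⟨a, b, e, d, f⟩ := h
  refine ⟨fun k => (a k).trans ?_, fun k => (b k).trans ?_, e.trans ?_, d.trans ?_, f.trans ?_⟩
  · exact mul_le_mul_of_nonneg_right hcc h2
  · exact mul_le_mul_of_nonneg_right hcc h2
  · exact mul_le_mul_of_nonneg_right hcc (le_max_right _ _)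
  · exact mul_le_mul_of_nonneg_right hcc h1
  · exact mul_le_mul_of_nonneg_right hcc h1

theorem lbOk_of {c c' : ℝ} (hcc : c ≤ c') {L b R : ℕ} {B : Cbx} {l : Ry} {t : ℝ} (hbR : b ≤ R) (hR : R ≤ L)
    (h : Shp c b R B) (h' : Bin c B 0 (bl 0 l t)) : LbOk c' L 0 B l t := by
  refine ⟨⟨b, R, h.u2, h.u1, hbR, by omega⟩, h.α2.trans hcc, h.κ2.trans hcc, bin_mono hcc ?_ ?_ h'⟩
  · rw [h.u1]; positivity
  · rw [h.u2]; positivity

theorem bl_congr' {a : ℕ} {l : Ry} {t t' : ℝ} (ht : fl1 a t = fl1 a t') : bl a l t = bl a l t' := by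
  unfold bl qa
  rw [ht]

theorem log_half' (n : ℕ) : Real.log ((1 / 2 : ℝ) ^ n) = -(n * Real.log 2) := by
  rw [Real.log_pow, one_div, Real.log_inv]
  ring

/-- the pieces of the meet as functions of the two boxes -/
theorem meet_choice {c c' : ℝ} {C : ℕ} {b R : ℕ} (hbR : b ≤ R)
    (hM : ∀ (X : ℕ) (B B' : Cbx) (l0 : Ry), X ≤ R - b → Shp c b R B → Shp c b R B' → Bin c B 0 l0 → Bin c B' 0 l0 →
      (Agr (2 ^ X * (1 / 2) ^ (R - b)) B B' l0 ∨ X = R - b) →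
      (X = 0 ∨ ¬ Agr (2 ^ (X - 1) * (1 / 2) ^ (R - b)) B B' l0) →
      ∃ p n : ℕ, b + p ≤ R ∧ X ≤ 2 * p + C ∧ p ≤ X ∧ (n : ℝ) * 2 ^ X ≤ C * 2 ^ (3 * p) ∧
        ∃ M : Fin n → Cbx, (∀ i, Shp c' (b + p) R (M i)) ∧
          ∀ l, Bin c B 0 l → Bin c B' 0 l → ∃ i, Bin c' (M i) 0 l) :
    ∃ (p n : Cbx → Cbx → ℕ) (M : Cbx → Cbx → ℕ → Cbx), ∀ B B' : Cbx, Shp c b R B → Shp c b R B' →
      (∃ l, Bin c B 0 l ∧ Bin c B' 0 l) →
      b + p B B' ≤ R ∧ xs c b R B B' ≤ 2 * p B B' + C ∧ p B B' ≤ xs c b R B B' ∧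
      (n B B' : ℝ) * 2 ^ xs c b R B B' ≤ C * 2 ^ (3 * p B B') ∧ (∀ i, i < n B B' → Shp c' (b + p B B') R (M B B' i)) ∧
      ∀ l, Bin c B 0 l → Bin c B' 0 l → ∃ i, i < n B B' ∧ Bin c' (M B B' i) 0 l := by
  have key : ∀ B B' : Cbx, ∃ (p n : ℕ) (M : ℕ → Cbx), Shp c b R B → Shp c b R B' → (∃ l, Bin c B 0 l ∧ Bin c B' 0 l) →
      b + p ≤ R ∧ xs c b R B B' ≤ 2 * p + C ∧ p ≤ xs c b R B B' ∧
      (n : ℝ) * 2 ^ xs c b R B B' ≤ C * 2 ^ (3 * p) ∧ (∀ i, i < n → Shp c' (b + p) R (M i)) ∧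
      ∀ l, Bin c B 0 l → Bin c B' 0 l → ∃ i, i < n ∧ Bin c' (M i) 0 l := by
    intro B B'
    by_cases h : Shp c b R B ∧ Shp c b R B' ∧ ∃ l, Bin c B 0 l ∧ Bin c B' 0 l
    · obtain ⟨h1, h2, m, h3, h4⟩ := h
      have hle := xs_le c b R B B'
      obtain ⟨l0, k1, k2, k3⟩ : ∃ l0, Bin c B 0 l0 ∧ Bin c B' 0 l0 ∧
          (Agr (2 ^ xs c b R B B' * (1 / 2) ^ (R - b)) B B' l0 ∨ xs c b R B B' = R - b) := by
        rcases xs_mem c b R B B' with h5 | ⟨l0, h5, h6, h7⟩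
        · exact ⟨m, h3, h4, Or.inr h5⟩
        · exact ⟨l0, h5, h6, Or.inl h7⟩
      have k4 : xs c b R B B' = 0 ∨ ¬ Agr (2 ^ (xs c b R B B' - 1) * (1 / 2) ^ (R - b)) B B' l0 := by
        rcases Nat.eq_zero_or_pos (xs c b R B B') with h5 | h5
        · exact Or.inl h5
        · exact Or.inr (xs_not (by omega) k1 k2)
      obtain ⟨p, n, g1, g2, g3, g4, M, g5, g6⟩ := hM _ B B' l0 hle h1 h2 k1 k2 k3 k4
      refine ⟨p, n, fun i => if h : i < n then M ⟨i, h⟩ else B, fun _ _ _ => ⟨g1, g2, g3, g4, fun i hi => ?_, fun l q1 q2 => ?_⟩⟩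
      · simp only [dif_pos hi]
        exact g5 _
      · obtain ⟨i, hi⟩ := g6 l q1 q2
        refine ⟨i, i.2, ?_⟩
        simp only [dif_pos i.2]
        exact hi
    · exact ⟨0, 0, fun _ => B, fun h1 h2 h3 => absurd ⟨h1, h2, h3⟩ h⟩
  choose p n M h using key
  exact ⟨p, n, M, h⟩

/-- **THEOREM SUB** -/
theorem sub_thm (hJ : PJoin) (hM : PMeet) {c : ℝ} (hc1 : 1 ≤ c) : ∃ c' K : ℝ, c ≤ c' ∧ 0 ≤ K ∧
    ∀ (Ω : Type) [Fintype Ω] (γ : Type) (P : Law Ω) (l : Ω → Ry) (t : Ω → ℝ) (C : Ω → γ) (L b R : ℕ) (A : Ω → Cbx)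
      (lam : ℝ), 0 ≤ lam → lam ≤ 1 → b ≤ R → R ≤ L →
    (∀ ω, 0 < P.w ω → Shp c b R (A ω) ∧ Bin c (A ω) 0 (bl 0 (l ω) (t ω))) →
    ∀ Q : Law (Fin 2 → Ω), (∀ w, Q.w w = cw P (fun ω => (l ω, fl1 0 (t ω), C ω)) 1 w) →
    ∃ (J M : (Fin 2 → Ω) → Cbx) (p : (Fin 2 → Ω) → ℕ),
      (∀ w, 0 < Q.w w → LbOk c' L 0 (J w) (l (w 0)) (t (w 0)) ∧ (J w).u2 = (1 / 2 : ℝ) ^ b ∧
        (J w).u1 = (1 / 2 : ℝ) ^ (R - xs c b R (A (w 0)) (A (w 1)))) ∧
      (∀ w, 0 < Q.w w → LbOk c' L 0 (M w) (l (w 0)) (t (w 0)) ∧ (M w).u2 = (1 / 2 : ℝ) ^ (b + p w) ∧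
        (M w).u1 = (1 / 2 : ℝ) ^ R ∧ p w ≤ xs c b R (A (w 0)) (A (w 1))) ∧
      2 * val lam P l t C 0 A + 3 / 2 * lam * Real.log 2 * Q.ex (fun w => (xs c b R (A (w 0)) (A (w 1)) : ℝ)) -
          2 * Q.H (fun w => xs c b R (A (w 0)) (A (w 1))) - K ≤
        val lam Q (fun w => l (w 0)) (fun w => t (w 0)) (fun w => C (w 0)) 0 J +
          val lam Q (fun w => l (w 0)) (fun w => t (w 0)) (fun w => C (w 0)) 0 M := by
  classical
  obtain ⟨cJ, N, hcJ, hJ'⟩ := hJ c hc1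
  obtain ⟨cM, D, hcM, hM'⟩ := hM c hc1
  have l2 : 0 < Real.log 2 := Real.log_pos (by norm_num)
  have hlN : 0 ≤ Real.log N := Real.log_natCast_nonneg N
  have hlD : 0 ≤ Real.log D := Real.log_natCast_nonneg D
  refine ⟨max c (max cJ cM), Real.log N + Real.log D + D / 2 * Real.log 2, le_max_left _ _, by positivity, ?_⟩
  intro Ω _ γ P l t C L b R A lam h0 h1 hbR hRL hA Q hQ
  obtain ⟨J, hJ1⟩ := hJ' b R hbR
  obtain ⟨p, n, M, hMM⟩ := meet_choice hbR (fun X B B' l0 => hM' b R X B B' l0 hbR)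
  set x : (Fin 2 → Ω) → ℕ := fun w => xs c b R (A (w 0)) (A (w 1)) with hx
  -- support
  have hs : ∀ w, 0 < Q.w w → Shp c b R (A (w 0)) ∧ Shp c b R (A (w 1)) ∧ Bin c (A (w 0)) 0 (bl 0 (l (w 0)) (t (w 0))) ∧
      Bin c (A (w 1)) 0 (bl 0 (l (w 0)) (t (w 0))) := by
    intro w hw
    obtain ⟨h2, h3, h4⟩ := supp2 hQ hw
    simp only [Prod.mk.injEq] at h2
    refine ⟨(hA _ h3).1, (hA _ h4).1, (hA _ h3).2, ?_⟩
    have := (hA _ h4).2
    rwa [h2.1, bl_congr' h2.2.1] at this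
  have hm : ∀ w, 0 < Q.w w → b + p (A (w 0)) (A (w 1)) ≤ R ∧ x w ≤ 2 * p (A (w 0)) (A (w 1)) + D ∧
      p (A (w 0)) (A (w 1)) ≤ x w ∧ (n (A (w 0)) (A (w 1)) : ℝ) * 2 ^ x w ≤ D * 2 ^ (3 * p (A (w 0)) (A (w 1))) ∧
      (∀ i, i < n (A (w 0)) (A (w 1)) → Shp cM (b + p (A (w 0)) (A (w 1))) R (M (A (w 0)) (A (w 1)) i)) ∧
      ∀ l, Bin c (A (w 0)) 0 l → Bin c (A (w 1)) 0 l → ∃ i, i < n (A (w 0)) (A (w 1)) ∧ Bin cM (M (A (w 0)) (A (w 1)) i) 0 l := by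
    intro w hw
    obtain ⟨s1, s2, s3, s4⟩ := hs w hw
    exact hMM _ _ s1 s2 ⟨_, s3, s4⟩
  -- the index of the piece
  have hix : ∀ w : Fin 2 → Ω, ∃ i : ℕ, 0 < Q.w w → i < n (A (w 0)) (A (w 1)) ∧
      Bin cM (M (A (w 0)) (A (w 1)) i) 0 (bl 0 (l (w 0)) (t (w 0))) := by
    intro w
    by_cases hw : 0 < Q.w w
    · obtain ⟨s1, s2, s3, s4⟩ := hs w hw
      obtain ⟨i, hi⟩ := (hm w hw).2.2.2.2.2 _ s3 s4
      exact ⟨i, fun _ => hi⟩
    · exact ⟨0, fun h => absurd h hw⟩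
  choose ix hix using hix
  set J0 : (Fin 2 → Ω) → Cbx := fun w => J (x w) (A (w 0)) with hJ0
  set M0 : (Fin 2 → Ω) → Cbx := fun w => M (A (w 0)) (A (w 1)) (ix w) with hM0
  set p0 : (Fin 2 → Ω) → ℕ := fun w => p (A (w 0)) (A (w 1)) with hp0
  have hxR : ∀ w, x w ≤ R - b := fun w => xs_le _ _ _ _ _
  -- the labels
  have hJs : ∀ w, 0 < Q.w w → Shp cJ b (R - x w) (J0 w) ∧ Bin cJ (J0 w) 0 (bl 0 (l (w 0)) (t (w 0))) := by
    intro w hw
    obtain ⟨s1, s2, s3, s4⟩ := hs w hw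
    obtain ⟨q1, q2⟩ := (hJ1 (x w) (hxR w)).1 (A (w 0)) s1
    exact ⟨q1, q2 _ s3⟩
  have hMs : ∀ w, 0 < Q.w w → Shp cM (b + p0 w) R (M0 w) ∧ Bin cM (M0 w) 0 (bl 0 (l (w 0)) (t (w 0))) := by
    intro w hw
    exact ⟨(hm w hw).2.2.2.2.1 _ (hix w hw).1, (hix w hw).2⟩
  refine ⟨J0, M0, p0, fun w hw => ⟨lbOk_of ((le_max_left _ _).trans (le_max_right _ _)) (by have := hxR w; omega)
      (by omega) (hJs w hw).1 (hJs w hw).2, (hJs w hw).1.u2, (hJs w hw).1.u1⟩, fun w hw =>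
      ⟨lbOk_of ((le_max_right _ _).trans (le_max_right _ _)) (hm w hw).1 hRL (hMs w hw).1 (hMs w hw).2, (hMs w hw).1.u2,
        (hMs w hw).1.u1, (hm w hw).2.2.1⟩, ?_⟩
  -- entropies
  have e1 := sub_shannon P l (fun ω => (fl1 0 (t ω), C ω)) A Q hQ x J0 N
    (fun w w' _ _ e => by
      simp only [Prod.mk.injEq] at e
      simp only [hJ0, e.1, e.2])
    (fun w hw => by
      obtain ⟨s1, s2, s3, s4⟩ := hs w hw
      obtain ⟨S, hS1, hS2⟩ := (hJ1 (x w) (hxR w)).2 (A (w 1)) s2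
      refine ⟨S, hS1, fun w' hw' k1 k2 => ?_⟩
      obtain ⟨r1, r2, r3, r4⟩ := hs w' hw'
      have k3 := xs_mem c b R (A (w' 0)) (A (w' 1))
      have k4 : xs c b R (A (w' 0)) (A (w' 1)) = x w := k1
      rw [k4] at k3
      show J (x w') (A (w' 0)) ∈ S
      rw [k1]
      rcases k3 with k5 | ⟨l', k5, k6, k7⟩
      · exact hS2 _ _ r1 r3 (by rw [← k2]; exact r4) (Or.inr k5)
      · rw [k2] at k6 k7
        exact hS2 _ _ r1 k5 k6 (Or.inl k7))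
  have e2 := sub_meet Q (fun w => l (w 0)) (fun w => A (w 0)) (fun w => A (w 1)) (fun w => (fl1 0 (t (w 0)), C (w 0))) M0 ix n
    (fun w w' _ _ e => by
      simp only [Prod.mk.injEq] at e
      simp only [hM0, e.1, e.2.1, e.2.2])
    (fun w hw => (hix w hw).1)
  -- sizes
  have e3 : Q.ex (fun w => Real.log (n (A (w 0)) (A (w 1)))) ≤
      Real.log D + (3 * Q.ex (fun w => (p0 w : ℝ)) - Q.ex (fun w => (x w : ℝ))) * Real.log 2 := by
    have : Q.ex (fun w => Real.log (n (A (w 0)) (A (w 1)))) ≤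
        Q.ex (fun w => Real.log D + (3 * (p0 w : ℝ) - (x w : ℝ)) * Real.log 2) := by
      refine Q.ex_mono fun w hw => ?_
      have q1 := (hm w hw).2.2.2.1
      have q2 : (0 : ℝ) < n (A (w 0)) (A (w 1)) := by
        exact_mod_cast lt_of_le_of_lt (Nat.zero_le _) (hix w hw).1
      have q3 : (0 : ℝ) < D := by
        have : (0 : ℝ) < D * 2 ^ (3 * p (A (w 0)) (A (w 1))) := lt_of_lt_of_le (by positivity) q1
        exact (pos_iff_pos_of_mul_pos this).2 (by positivity)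
      have q4 := Real.log_le_log (by positivity) q1
      rw [Real.log_mul q2.ne' (by positivity), Real.log_mul q3.ne' (by positivity), Real.log_pow, Real.log_pow] at q4
      push_cast at q4
      have q5 : (p0 w : ℝ) = p (A (w 0)) (A (w 1)) := rfl
      rw [q5]
      linarith
    refine this.trans (le_of_eq ?_)
    have e : (fun w => Real.log D + (3 * (p0 w : ℝ) - (x w : ℝ)) * Real.log 2) =
        fun w => (Real.log D) + (3 * Real.log 2 * (p0 w : ℝ) - Real.log 2 * (x w : ℝ)) := by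
      funext w; ring
    rw [e, Q.ex_add, Q.ex_const, Q.ex_sub, Q.ex_const_mul, Q.ex_const_mul]
    ring
  have e4 : Q.ex (fun w => (x w : ℝ)) ≤ 2 * Q.ex (fun w => (p0 w : ℝ)) + D := by
    have : Q.ex (fun w => (x w : ℝ)) ≤ Q.ex (fun w => 2 * (p0 w : ℝ) + D) := by
      refine Q.ex_mono fun w hw => ?_
      exact_mod_cast (hm w hw).2.1
    rwa [Q.ex_add, Q.ex_const, Q.ex_const_mul] at this
  have vA : val lam P l t C 0 A = hc P l (fun ω => (A ω, fl1 0 (t ω), C ω)) +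
      ((3 + lam) * b + (1 - lam) * R) * Real.log 2 := by
    unfold val
    have : P.ex (fun ω => (3 + lam) * Real.log (A ω).u2 + (1 - lam) * Real.log (A ω).u1) =
        P.ex (fun _ => -(((3 + lam) * b + (1 - lam) * R) * Real.log 2)) := by
      refine P.ex_congr fun ω hω => ?_
      rw [(hA ω hω).1.u2, (hA ω hω).1.u1, log_half', log_half']
      ring
    rw [this, P.ex_const]
    push_cast
    ring
  have vJ : val lam Q (fun w => l (w 0)) (fun w => t (w 0)) (fun w => C (w 0)) 0 J0 =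
      hc Q (fun w => l (w 0)) (fun w => (J0 w, fl1 0 (t (w 0)), C (w 0))) +
      ((3 + lam) * b + (1 - lam) * (R - Q.ex (fun w => (x w : ℝ)))) * Real.log 2 := by
    unfold val
    have : Q.ex (fun w => (3 + lam) * Real.log (J0 w).u2 + (1 - lam) * Real.log (J0 w).u1) =
        Q.ex (fun w => -(((3 + lam) * b + (1 - lam) * R) * Real.log 2) + (1 - lam) * Real.log 2 * (x w : ℝ)) := by
      refine Q.ex_congr fun w hw => ?_
      have hle : x w ≤ R := (hxR w).trans (Nat.sub_le _ _)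
      rw [(hJs w hw).1.u2, (hJs w hw).1.u1, log_half', log_half', Nat.cast_sub hle]
      ring
    rw [this, Q.ex_add, Q.ex_const, Q.ex_const_mul]
    push_cast
    ring
  have vM : val lam Q (fun w => l (w 0)) (fun w => t (w 0)) (fun w => C (w 0)) 0 M0 =
      hc Q (fun w => l (w 0)) (fun w => (M0 w, fl1 0 (t (w 0)), C (w 0))) +
      ((3 + lam) * (b + Q.ex (fun w => (p0 w : ℝ))) + (1 - lam) * R) * Real.log 2 := by
    unfold val
    have : Q.ex (fun w => (3 + lam) * Real.log (M0 w).u2 + (1 - lam) * Real.log (M0 w).u1) =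
        Q.ex (fun w => -(((3 + lam) * b + (1 - lam) * R) * Real.log 2) + -((3 + lam) * Real.log 2) * (p0 w : ℝ)) := by
      refine Q.ex_congr fun w hw => ?_
      rw [(hMs w hw).1.u2, (hMs w hw).1.u1, log_half', log_half']
      push_cast
      ring
    rw [this, Q.ex_add, Q.ex_const, Q.ex_const_mul]
    push_cast
    ring
  rw [vA, vJ, vM]
  set hA' := hc P l (fun ω => (A ω, fl1 0 (t ω), C ω))
  set hJ'' := hc Q (fun w => l (w 0)) (fun w => (J0 w, fl1 0 (t (w 0)), C (w 0)))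
  set hM'' := hc Q (fun w => l (w 0)) (fun w => (M0 w, fl1 0 (t (w 0)), C (w 0)))
  set Ex := Q.ex (fun w => (x w : ℝ))
  set Ep := Q.ex (fun w => (p0 w : ℝ))
  have e5 : lam * Real.log 2 * (Ex - D) ≤ lam * Real.log 2 * (2 * Ep) :=
    mul_le_mul_of_nonneg_left (by linarith) (by positivity)
  have e6 : lam * (D / 2 * Real.log 2) ≤ 1 * (D / 2 * Real.log 2) :=
    mul_le_mul_of_nonneg_right h1 (by positivity)
  have key : 2 * hA' - 2 * Q.H x - Real.log N ≤ hJ'' + hM'' + (Real.log D + (3 * Ep - Ex) * Real.log 2) := by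
    linarith
  nlinarith

end Vale.Agent.P106.U.H457
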