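import Vale.Agent.P106.U.H457.Sub
import Vale.Agent.P106.U.H875.XX
import Vale.Agent.P106.U.H513.Ext
import Vale.Agent.P106.U.H868.Abs
import Vale.Agent.P106.U.H61.Mac

/-!
# P106 / U / H457 : the FIX side of SUB (helper61's TEXT S1 (5), note 17579)

`sub_fix` : for a near-extremal system (`NEx`, `k ≤ lam / 8`, `d ≤ β`) and any label `A` of level `0`, shape `(h, h + q)`, with
`val W ≤ val A + 2 h log 2 + K0`, two copies given `(l, C)` have `lam E x ≤ 5 h + K`, `x = xs` (number of digits of the frame which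
differ).
-/

set_option autoImplicit false

namespace Vale.Agent.P106.U.H457

open Finset Vale.Agent.P127 Vale.Agent.P127.Stk Vale.Agent.P127.U Vale.Agent.P106.W Vale.Agent.P106.K Vale.Agent.P106.U

theorem two_pos_log : (0 : ℝ) < Real.log 2 := Real.log_pos (by norm_num)

theorem lbOk_mono' {c c' : ℝ} (hcc : c ≤ c') {L a : ℕ} {B : Cbx} {l : Ry} {t : ℝ} (h : LbOk c L a B l t) :
    LbOk c' L a B l t := by
  obtain ⟨⟨b, R, h1, h2, h3, h4⟩, h5, h6, h7⟩ := h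
  exact ⟨⟨b, R, h1, h2, h3, h4⟩, h5.trans hcc, h6.trans hcc, bin_mono hcc (by rw [h2]; positivity) (by rw [h1]; positivity) h7⟩

/-- distance of the shapes -/
theorem dsh_shape {B : Cbx} {b R : ℕ} (h1 : B.u2 = (1 / 2 : ℝ) ^ b) (h2 : B.u1 = (1 / 2 : ℝ) ^ R) (e : ℕ × ℕ) :
    dsh B e = (|(b : ℝ) - e.1| + |(R : ℝ) - e.2|) * Real.log 2 := by
  unfold dsh
  rw [h1, h2, log_half', log_half']
  have l2 := two_pos_log
  have a1 : ∀ x y : ℝ, |-(x * Real.log 2) + y * Real.log 2| = |x - y| * Real.log 2 := by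
    intro x y
    rw [show -(x * Real.log 2) + y * Real.log 2 = -((x - y) * Real.log 2) by ring, abs_neg, abs_mul, abs_of_pos l2]
  rw [a1, a1]
  ring

/-- the deficit of the time is almost nonnegative -/
theorem Dd_ge {Ω : Type} [Fintype Ω] {γ : Type} (P : Law Ω) (l : Ω → Ry) (t : Ω → ℝ) (C : Ω → γ) (a : ℕ)
    (ht : ∀ ω, 0 < P.w ω → 0 ≤ t ω ∧ t ω ≤ 1) : -Real.log 2 ≤ Dd P l t C a := by
  classical
  unfold Dd
  have h1 : hc P (fun ω => fl1 a (t ω)) (fun ω => (l ω, C ω)) ≤ Real.log ((2 ^ a + 1 : ℕ) : ℝ) := by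
    refine hc_le_log P _ _ _ fun ω _ => ⟨Finset.Icc (0 : ℤ) (2 ^ a), ?_, fun ω' hω' _ => ?_⟩
    · rw [Int.card_Icc]
      have : ((2 : ℤ) ^ a + 1 - 0) = ((2 ^ a + 1 : ℕ) : ℤ) := by push_cast; ring
      rw [this, Int.toNat_natCast]
    · obtain ⟨h0, h1⟩ := ht ω' hω'
      rw [Finset.mem_Icc]
      unfold fl1
      refine ⟨Int.floor_nonneg.2 (by positivity), ?_⟩
      have h2 : (2 : ℝ) ^ a * t ω' ≤ 2 ^ a := mul_le_of_le_one_right (by positivity) h1
      have h3 : ⌊(2 : ℝ) ^ a * t ω'⌋ ≤ ⌊((2 ^ a : ℤ) : ℝ)⌋ := Int.floor_le_floor (by push_cast; exact h2)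
      rwa [Int.floor_intCast] at h3
  have h2 : Real.log ((2 ^ a + 1 : ℕ) : ℝ) ≤ (a + 1) * Real.log 2 := by
    have h3 : ((2 ^ a + 1 : ℕ) : ℝ) ≤ 2 ^ (a + 1) := by
      push_cast
      rw [pow_succ]
      have : (1 : ℝ) ≤ 2 ^ a := one_le_pow₀ (by norm_num)
      linarith
    have h4 := Real.log_le_log (by positivity) h3
    rw [Real.log_pow] at h4
    push_cast at h4 ⊢
    exact h4
  linarith

theorem sub_fix (hJ : PJoin) (hM : PMeet) {c c1 lam k N K0 : ℝ} (hc1 : 1 ≤ c) (hcc : 1 ≤ c1) (h0 : 0 < lam)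
    (h1 : lam ≤ 1) (hk : 0 ≤ k) (hk1 : k ≤ lam / 8) (hN : 0 ≤ N) :
    ∃ K : ℝ, ∀ (β d : ℝ) (Ω : Type) [Fintype Ω] (γ : Type) (P : Law Ω) (l : Ω → Ry) (t : Ω → ℝ) (C : Ω → γ) (L h q : ℕ)
      (W A : Ω → Cbx), d ≤ β → NEx c lam N k β d P l t C L h q W →
      (∀ ω, 0 < P.w ω → LbOk c1 L 0 (A ω) (l ω) (t ω) ∧ (A ω).u2 = (1 / 2 : ℝ) ^ h ∧ (A ω).u1 = (1 / 2 : ℝ) ^ (h + q)) →
      val lam P l t C h W ≤ val lam P l t C 0 A + 2 * h * Real.log 2 + K0 →
      ∀ Q : Law (Fin 2 → Ω), (∀ w, Q.w w = cw P (fun ω => (l ω, fl1 0 (t ω), C ω)) 1 w) →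
        lam * Q.ex (fun w => (xs c1 h (h + q) (A (w 0)) (A (w 1)) : ℝ)) ≤ 5 * h + K := by
  obtain ⟨c2, Ks, hc2, hKs, hS⟩ := sub_thm hJ hM hcc
  obtain ⟨Kc, hKc, hcls⟩ := H513.cls_X (c := c2) (c₁ := c) (lam := lam) (hcc.trans hc2) (by linarith) h0.le h1
  have l2 := two_pos_log
  set θ : ℝ := lam / 8 with hθ
  have hθ0 : 0 < θ := by rw [hθ]; linarith
  refine ⟨(2 * (K0 + N * Real.log 2) + Ks + 2 * ((1 + 0 + k) * Kc) + 2 * H868.Kth θ) / Real.log 2, ?_⟩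
  intro β d Ω _ γ P l t C L h q W A hd hne hA hv Q hQ
  have hRL : h + q ≤ L := hne.hL
  obtain ⟨J, M, p, g1, g2, g3⟩ := hS Ω γ P l t C L h (h + q) A lam h0.le h1 (by omega) hRL
    (fun ω hω => ⟨⟨(hA ω hω).2.1, (hA ω hω).2.2, (hA ω hω).1.α2, (hA ω hω).1.κ2⟩, (hA ω hω).1.inn⟩) Q hQ
  set x : (Fin 2 → Ω) → ℕ := fun w => xs c1 h (h + q) (A (w 0)) (A (w 1)) with hx
  have hxq : ∀ w, x w ≤ q := fun w => (xs_le _ _ _ _ _).trans (by omega)
  set Ex := Q.ex (fun w => (x w : ℝ)) with hEx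
  have hEx0 : 0 ≤ Ex := Q.ex_nonneg fun w _ => Nat.cast_nonneg _
  -- entropy of x
  have e1 : Q.H x ≤ θ * (Real.log 2 * Ex) + H868.Kth θ := by
    have a1 := H868.hc_dist Q (fun w => (x w : ℤ)) (fun _ => (0 : ℤ)) (fun _ => (0 : ℤ)) (fun _ => (0 : ℤ)) (fun _ => ()) hθ0
    have a2 : Q.ex (fun w => Real.log 2 * (|((x w : ℤ) : ℝ) - ((0 : ℤ) : ℝ)| + |((0 : ℤ) : ℝ) - ((0 : ℤ) : ℝ)|)) =
        Real.log 2 * Ex := by
      rw [← Q.ex_const_mul]
      refine Q.ex_congr fun w _ => ?_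
      have : (0 : ℝ) ≤ x w := Nat.cast_nonneg _
      simp
    rw [a2] at a1
    refine le_trans ?_ a1
    have a3 : Q.H x = hc Q x (fun _ => ((((0 : ℤ), (0 : ℤ))), ())) := by
      unfold hc
      have b1 : Q.H (fun _ : Fin 2 → Ω => (((0 : ℤ), (0 : ℤ)), ())) = 0 := by
        have := hc_zero Q (X := fun _ : Fin 2 → Ω => (((0 : ℤ), (0 : ℤ)), ())) (Y := x) (fun _ _ _ _ _ => rfl)
        have b2 := hc_le_H Q (fun _ : Fin 2 → Ω => (((0 : ℤ), (0 : ℤ)), ())) (fun _ => ())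
        have b3 := Q.H_nonneg (fun _ : Fin 2 → Ω => (((0 : ℤ), (0 : ℤ)), ()))
        have b4 : Q.H (fun _ : Fin 2 → Ω => (((0 : ℤ), (0 : ℤ)), ())) ≤ Q.H (fun _ : Fin 2 → Ω => ()) :=
          H_mono' Q (fun _ _ _ _ _ => rfl)
        have b5 : Q.H (fun _ : Fin 2 → Ω => ()) ≤ Real.log (Fintype.card Unit) := Q.H_le_log_card _
        simp only [Fintype.card_unit, Nat.cast_one, Real.log_one] at b5
        linarith
      rw [b1, sub_zero]
      refine Q.H_congr fun w w' => ?_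
      simp
    rw [a3]
    refine hc_mono_left Q ?_
    intro w w' _ _ e
    simp only [Prod.mk.injEq, Nat.cast_inj] at e
    exact e.1.1
  -- the two labels
  have mj := H875.valX_le_XX (C := C) (e := fun _ => (0, q)) (c := c2) (lam := lam) (k := k) (La := 0) (L := L) (a := 0)
    h0.le h1 hk le_rfl (cw_marg hQ 0) (W := J) (fun w hw => (g1 w hw).1)
  have mm := H875.valX_le_XX (C := C) (e := fun _ => (0, q)) (c := c2) (lam := lam) (k := k) (La := 0) (L := L) (a := 0)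
    h0.le h1 hk le_rfl (cw_marg hQ 0) (W := M) (fun w hw => (g2 w hw).1)
  have hXX := hcls Ω γ P l t C (fun _ => (0, q)) L 0 k 0 hk le_rfl (Nat.zero_le _)
  have dj : Q.ex (fun w => dsh (J w) (0, q)) ≤ (2 * h + Ex) * Real.log 2 := by
    have : Q.ex (fun w => dsh (J w) (0, q)) ≤ Q.ex (fun w => 2 * h * Real.log 2 + Real.log 2 * (x w : ℝ)) := by
      refine Q.ex_mono fun w hw => ?_
      rw [dsh_shape (g1 w hw).2.1 (g1 w hw).2.2]
      have hle : xs c1 h (h + q) (A (w 0)) (A (w 1)) ≤ h + q := (hxq w).trans (by omega)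
      rw [Nat.cast_sub hle]
      push_cast
      have a1 : |(h : ℝ) - 0| = h := by rw [sub_zero, abs_of_nonneg (Nat.cast_nonneg _)]
      have a2 : |(h : ℝ) + q - (xs c1 h (h + q) (A (w 0)) (A (w 1)) : ℝ) - q| ≤ h + (x w : ℝ) := by
        rw [abs_le]
        have i1 : (0 : ℝ) ≤ h := Nat.cast_nonneg _
        have i2 : (0 : ℝ) ≤ x w := Nat.cast_nonneg _
        constructor <;> simp only [hx] at * <;> linarith
      rw [a1]
      nlinarith
    rw [Q.ex_add, Q.ex_const, Q.ex_const_mul] at this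
    linarith
  have dm : Q.ex (fun w => dsh (M w) (0, q)) ≤ (2 * h + Ex) * Real.log 2 := by
    have : Q.ex (fun w => dsh (M w) (0, q)) ≤ Q.ex (fun w => 2 * h * Real.log 2 + Real.log 2 * (x w : ℝ)) := by
      refine Q.ex_mono fun w hw => ?_
      obtain ⟨-, q1, q2, q3⟩ := g2 w hw
      rw [dsh_shape q1 q2]
      push_cast
      have i1 : (0 : ℝ) ≤ h := Nat.cast_nonneg _
      have i3 : (0 : ℝ) ≤ p w := Nat.cast_nonneg _
      have i4 : (p w : ℝ) ≤ x w := by exact_mod_cast q3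
      have a1 : |(h : ℝ) + p w - 0| = h + p w := by rw [sub_zero, abs_of_nonneg (by linarith)]
      have a2 : |(h : ℝ) + q - q| = h := by rw [add_sub_cancel_right, abs_of_nonneg i1]
      rw [a1, a2]
      nlinarith
    rw [Q.ex_add, Q.ex_const, Q.ex_const_mul] at this
    linarith
  have hD := Dd_ge P l t C h (fun ω hω => (hne.ok ω hω).2)
  have hND : -(N * Real.log 2) ≤ N * Dd P l t C h := by nlinarith
  have hex := hne.ex
  have hβ : 0 ≤ (β - d) * h * Real.log 2 := by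
    have : 0 ≤ β - d := by linarith
    positivity
  unfold valX at mj mm
  simp only [zero_mul, add_zero] at mj mm hXX
  have kj := mul_le_mul_of_nonneg_left dj hk
  have km := mul_le_mul_of_nonneg_left dm hk
  set XX0 := XX c lam k 0 P l t C (fun _ => (0, q)) L 0
  set XX2 := XX c2 lam k 0 P l t C (fun _ => (0, q)) L 0
  set vA := val lam P l t C 0 A
  set vW := val lam P l t C h W
  set vJ := val lam Q (fun w => l (w 0)) (fun w => t (w 0)) (fun w => C (w 0)) 0 J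
  set vM := val lam Q (fun w => l (w 0)) (fun w => t (w 0)) (fun w => C (w 0)) 0 M
  have i1 : (0 : ℝ) ≤ h := Nat.cast_nonneg _
  -- collect
  have mj' : vJ - k * Q.ex (fun w => dsh (J w) (0, q)) ≤ XX2 := mj
  have mm' : vM - k * Q.ex (fun w => dsh (M w) (0, q)) ≤ XX2 := mm
  have hXX' : XX2 ≤ XX0 + (1 + k) * Kc := hXX
  have g3' : 2 * vA + 3 / 2 * lam * Real.log 2 * Ex - 2 * Q.H x - Ks ≤ vJ + vM := g3
  have hex' : XX0 + (β - d) * h * Real.log 2 + N * Dd P l t C h ≤ vW := hex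
  have hv' : vW ≤ vA + 2 * h * Real.log 2 + K0 := hv
  have t1 : 3 / 2 * lam * Real.log 2 * Ex ≤ 4 * h * Real.log 2 + 2 * (K0 + N * Real.log 2) + Ks + 2 * ((1 + k) * Kc) +
      2 * (k * ((2 * h + Ex) * Real.log 2)) + 2 * (θ * (Real.log 2 * Ex) + H868.Kth θ) := by
    linarith
  have t2 : k * ((2 * h + Ex) * Real.log 2) ≤ lam / 8 * ((2 * h + Ex) * Real.log 2) :=
    mul_le_mul_of_nonneg_right hk1 (by positivity)
  have t3 : lam / 8 * (2 * h * Real.log 2) ≤ 1 / 8 * (2 * h * Real.log 2) :=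
    mul_le_mul_of_nonneg_right (by linarith) (by positivity)
  rw [hθ] at t1
  have t4 : lam * Ex * Real.log 2 ≤ 5 * h * Real.log 2 + (2 * (K0 + N * Real.log 2) + Ks + 2 * ((1 + 0 + k) * Kc) +
      2 * H868.Kth θ) := by
    rw [hθ]
    nlinarith
  have t5 : lam * Ex ≤ (5 * h * Real.log 2 + (2 * (K0 + N * Real.log 2) + Ks + 2 * ((1 + 0 + k) * Kc) +
      2 * H868.Kth θ)) / Real.log 2 := by
    rw [le_div_iff₀ l2]
    exact t4
  rw [add_div, mul_div_assoc, div_self l2.ne', mul_one] at t5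
  exact t5

end Vale.Agent.P106.U.H457
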